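import Vale.Agent.P299.H723.D.Defs
import Vale.Agent.P272.K.N.Hess
import Vale.Agent.P272.K.LIN.Jet
import Mathlib.Order.Filter.Ultrafilter.Basic

/-!
# P299, package D2 (the factors `Y 1`, `Y 2` are compact): interface

Proof by a positive solution `G` of `ΔG = lG` of maximal logarithmic gradient, see note of helper760.
-/

open scoped Manifold ContDiff ComplexOrder Topology
open Vale.Agent.P272.K Vale.Agent.P278.H837 Vale.Agent.P299.D Filter Metric Set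

set_option maxSynthPendingDepth 3

noncomputable section

namespace Vale.Agent.P299.H760

/-! ## Local analysis -/

/-- bilinear forms on `E` -/
abbrev B2 (E : Type) [NormedAddCommGroup E] [NormedSpace ℝ E] : Type := E →L[ℝ] E →L[ℝ] ℝ

/-- The second order operator without lower order terms with coefficients `a`. -/
def Lop {E : Type} [NormedAddCommGroup E] [NormedSpace ℝ E] (a : E → B2 E →L[ℝ] ℝ) (u : E → ℝ)
    (z : E) : ℝ := a z (fderiv ℝ (fderiv ℝ u) z)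

/-- smooth elliptic coefficients on the open set `U` -/
structure EllOn {E : Type} [NormedAddCommGroup E] [NormedSpace ℝ E] (a : E → B2 E →L[ℝ] ℝ)
    (U : Set E) : Prop where
  isOpen : IsOpen U
  smooth : ∀ z ∈ U, ContDiffAt ℝ ∞ a z
  pos : ∀ z ∈ U, ∀ ξ : E →L[ℝ] ℝ, ξ ≠ 0 → 0 < a z (ξ.smulRight ξ)

/-- **LOC1**: interior estimates of all orders for solutions of `Lg = lg`. -/
def InteriorStatement : Prop :=
  ∀ (E : Type) [NormedAddCommGroup E] [NormedSpace ℝ E] [FiniteDimensional ℝ E]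
    (a : E → B2 E →L[ℝ] ℝ) (U : Set E), EllOn a U → ∀ (l : ℝ) (x₀ : E) (R : ℝ), 0 < R →
    closedBall x₀ R ⊆ U → ∀ m : ℕ, ∃ ρ : ℝ, 0 < ρ ∧ ρ ≤ R ∧ ∃ C : ℝ, 0 ≤ C ∧
      ∀ (g : E → ℝ) (S : ℝ), (∀ z ∈ ball x₀ R, ContDiffAt ℝ ∞ g z) →
      (∀ z ∈ ball x₀ R, Lop a g z = l * g z) → (∀ z ∈ ball x₀ R, |g z| ≤ S) →
      ∀ k ≤ m, ∀ z ∈ ball x₀ ρ, ‖iteratedFDeriv ℝ k g z‖ ≤ C * S

/-- **LOC2**: the logarithmic gradient of a positive solution of `Lw = lw` is bounded. -/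
def LogStatement : Prop :=
  ∀ (E : Type) [NormedAddCommGroup E] [NormedSpace ℝ E] [FiniteDimensional ℝ E]
    (a : E → B2 E →L[ℝ] ℝ) (U : Set E), EllOn a U → ∀ (l : ℝ), 0 < l → ∀ (x₀ : E) (R : ℝ),
    0 < R → closedBall x₀ R ⊆ U → ∃ C : ℝ, 0 ≤ C ∧ ∀ w : E → ℝ,
      (∀ z ∈ ball x₀ R, ContDiffAt ℝ ∞ w z) → (∀ z ∈ ball x₀ R, 0 < w z) →
      (∀ z ∈ ball x₀ R, Lop a w z = l * w z) → ∀ z ∈ ball x₀ (R / 2), ‖fderiv ℝ w z‖ ≤ C * w z

/-- **LOC3**: the strong maximum principle. -/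
def SMPStatement : Prop :=
  ∀ (E : Type) [NormedAddCommGroup E] [NormedSpace ℝ E] [FiniteDimensional ℝ E]
    (a : E → B2 E →L[ℝ] ℝ) (U : Set E), EllOn a U → ∀ (β : E → (E →L[ℝ] ℝ) →L[ℝ] ℝ),
    ContinuousOn β U → ∀ (C : ℝ) (φ : E → ℝ), (∀ z ∈ U, ContDiffAt ℝ 2 φ z) →
    (∀ z ∈ U, 0 ≤ φ z) → (∀ z ∈ U, Lop a φ z + β z (fderiv ℝ φ z) ≤ C * φ z) →
    ∀ x₀ ∈ U, φ x₀ = 0 → ∀ᶠ z in 𝓝 x₀, φ z = 0

/-- **LOC4**: ultralimits of functions with locally bounded derivatives of all orders. -/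
def UltraStatement : Prop :=
  ∀ (E : Type) [NormedAddCommGroup E] [NormedSpace ℝ E] [FiniteDimensional ℝ E] (ι : Type)
    (𝒰 : Ultrafilter ι) (g : ι → E → ℝ) (x₀ : E) (G : E → ℝ),
    (∀ m : ℕ, ∃ ρ : ℝ, 0 < ρ ∧ ∃ C : ℝ, ∀ᶠ j in (𝒰 : Filter ι), ∀ z ∈ ball x₀ ρ,
      ContDiffAt ℝ ∞ (g j) z ∧ ∀ k ≤ m, ‖iteratedFDeriv ℝ k (g j) z‖ ≤ C) →
    (∀ᶠ z in 𝓝 x₀, Tendsto (fun j => g j z) 𝒰 (𝓝 (G z))) →
    ContDiffAt ℝ ∞ G x₀ ∧ Tendsto (fun j => fderiv ℝ (g j) x₀) 𝒰 (𝓝 (fderiv ℝ G x₀)) ∧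
      Tendsto (fun j => fderiv ℝ (fderiv ℝ (g j)) x₀) 𝒰 (𝓝 (fderiv ℝ (fderiv ℝ G) x₀))

/-! ## Patch systems -/

variable {n : ℕ}

/-- `B ↦ Re tr (G⁻¹ lev B)` -/
def opG (G : Matrix (Fin n) (Fin n) ℂ) : B2 (Cm n) →L[ℝ] ℝ :=
  LinearMap.toContinuousLinearMap
    { toFun := fun B => (G⁻¹ * N.lev B).trace.re
      map_add' := fun B C => by
        rw [N.lev_add, Matrix.mul_add, Matrix.trace_add, Complex.add_re]
      map_smul' := fun c B => by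
        rw [N.lev_smul, Matrix.mul_smul, Matrix.trace_smul, smul_eq_mul, Complex.re_ofReal_mul,
          RingHom.id_apply, smul_eq_mul] }

theorem opG_apply (G : Matrix (Fin n) (Fin n) ℂ) (B : B2 (Cm n)) :
    opG G B = (G⁻¹ * N.lev B).trace.re := rfl

/-- `M` with an action `ac` of the group `Γ` and finitely many small charts `e i` (with metrics `g i`)
whose `Γ`-translates cover `M`; the transition maps are holomorphic isometries. `ρ i` is a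
`Γ`-invariant partition of unity; `solve` is the local solvability of `l v - L v = f`. -/
structure PS (n : ℕ) (M Γ : Type) [TopologicalSpace M] [Group Γ] where
  ac : Γ → M ≃ₜ M
  ac_one : ∀ m, ac 1 m = m
  ac_mul : ∀ γ δ m, ac (γ * δ) m = ac γ (ac δ m)
  N : ℕ
  e : Fin N → Chart n M
  c : Fin N → Cm n
  r : Fin N → ℝ
  r_pos : ∀ i, 0 < r i
  ball_sub : ∀ i, closedBall (c i) (4 * r i) ⊆ (e i).target
  cover : ∀ m, ∃ i γ, ac γ m ∈ (e i).source ∧ e i (ac γ m) ∈ ball (c i) (r i)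
  sep : ∀ i γ m, m ∈ (e i).source → ac γ m ∈ (e i).source → γ = 1
  g : Fin N → Cm n → Matrix (Fin n) (Fin n) ℂ
  g_smooth : ∀ i, ∀ z ∈ (e i).target, ∀ p q, ContDiffAt ℝ ∞ (fun z => g i z p q) z
  g_pos : ∀ i, ∀ z ∈ (e i).target, (g i z).PosDef
  tr_hol : ∀ i j γ m, m ∈ (e i).source → ac γ m ∈ (e j).source →
    ContDiffAt ℂ ω (fun z => e j (ac γ ((e i).symm z))) (e i m)
  tr_iso : ∀ i j γ m, m ∈ (e i).source → ac γ m ∈ (e j).source →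
    g i (e i m) = (jmat (fun z => e j (ac γ ((e i).symm z))) (e i m)).transpose *
      g j (e j (ac γ m)) * (jmat (fun z => e j (ac γ ((e i).symm z))) (e i m)).map (starRingEnd ℂ)
  ρ : Fin N → M → ℝ
  ρ_inv : ∀ i γ m, ρ i (ac γ m) = ρ i m
  ρ_nonneg : ∀ i m, 0 ≤ ρ i m
  ρ_sum : ∀ m, ∑ i, ρ i m = 1
  ρ_smooth : ∀ i j, ∀ z ∈ (e j).target, ContDiffAt ℝ ∞ (fun z => ρ i ((e j).symm z)) z
  ρ_supp : ∀ i m, (∃ γ, ac γ m ∈ (e i).source ∧ e i (ac γ m) ∈ ball (c i) (2 * r i)) ∨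
    ∀ᶠ m' in 𝓝 m, ρ i m' = 0
  solve : ∀ i, ∃ C l₀ : ℝ, 0 ≤ C ∧ 1 ≤ l₀ ∧ ∀ l : ℝ, l₀ ≤ l → ∀ (f : Cm n → ℝ) (A B : ℝ), 0 ≤ B →
    LIN.HB (1 / 2 : ℝ) f A B → ∃ v : Cm n → ℝ, ContDiff ℝ 2 v ∧
      (∀ z ∈ closedBall (c i) (2 * r i), l * v z - Lop (fun y => opG (g i y)) v z = f z) ∧
      LIN.ResBd (1 / 2 : ℝ) l C (l ^ ((1 / 2 : ℝ) / 2) * A + B) v

namespace PS

variable {M Γ : Type} [TopologicalSpace M] [Group Γ] (P : PS n M Γ)

/-- the function `f` in the patch `(i, γ)` -/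
def loc (i : Fin P.N) (γ : Γ) (f : M → ℝ) (z : Cm n) : ℝ := f (P.ac γ⁻¹ ((P.e i).symm z))

/-- smooth functions -/
def Sm (f : M → ℝ) : Prop := ∀ i γ, ∀ z ∈ (P.e i).target, ContDiffAt ℝ ∞ (P.loc i γ f) z

/-- the Laplacian in the patches of index `i` -/
def Lo (i : Fin P.N) (u : Cm n → ℝ) (z : Cm n) : ℝ := Lop (fun y => opG (P.g i y)) u z

/-- `l w - Δ w = f` -/
def IsSol (l : ℝ) (w f : M → ℝ) : Prop := ∀ i γ, ∀ z ∈ (P.e i).target,
  l * P.loc i γ w z - P.Lo i (P.loc i γ w) z = P.loc i γ f z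

/-- `f` and its first derivatives in the patches are bounded -/
def C1b (A B : ℝ) (f : M → ℝ) : Prop := (∀ m, |f m| ≤ A) ∧
  ∀ i γ, ∀ z ∈ closedBall (P.c i) (4 * P.r i), ‖fderiv ℝ (P.loc i γ f) z‖ ≤ B

/-- `|∂ log G|²` in the patch `(i, γ)` -/
def Q (i : Fin P.N) (γ : Γ) (G : M → ℝ) (z : Cm n) : ℝ :=
  opG (P.g i z) ((fderiv ℝ (P.loc i γ G) z).smulRight (fderiv ℝ (P.loc i γ G) z)) /
    (P.loc i γ G z) ^ 2

/-- `T` is a holomorphic isometry -/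
def IsIso (T : M → M) : Prop := Continuous T ∧ ∀ i j γ δ m, P.ac γ m ∈ (P.e i).source →
  P.ac δ (T m) ∈ (P.e j).source →
  ContDiffAt ℂ ω (fun z => P.e j (P.ac δ (T (P.ac γ⁻¹ ((P.e i).symm z))))) (P.e i (P.ac γ m)) ∧
  P.g i (P.e i (P.ac γ m)) =
    (jmat (fun z => P.e j (P.ac δ (T (P.ac γ⁻¹ ((P.e i).symm z))))) (P.e i (P.ac γ m))).transpose *
      P.g j (P.e j (P.ac δ (T m))) *
      (jmat (fun z => P.e j (P.ac δ (T (P.ac γ⁻¹ ((P.e i).symm z))))) (P.e i (P.ac γ m))).map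
        (starRingEnd ℂ)

end PS

/-- **SOLVER**: `l w - Δ w = f` has a bounded smooth solution for large `l`. -/
def SolverStatement : Prop :=
  ∀ (n : ℕ) (M Γ : Type) [TopologicalSpace M] [Group Γ] (P : PS n M Γ), ∃ l₀ : ℝ, 1 ≤ l₀ ∧
    ∀ l : ℝ, l₀ ≤ l → ∀ (f : M → ℝ) (A B : ℝ), P.Sm f → P.C1b A B f →
      ∃ w : M → ℝ, P.Sm w ∧ (∃ W, ∀ m, |w m| ≤ W) ∧ P.IsSol l w f

/-- **WMP**: the maximum principle for bounded functions. -/
def WMPStatement : Prop :=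
  ∀ (n : ℕ) (M Γ : Type) [TopologicalSpace M] [Group Γ] (P : PS n M Γ) (l : ℝ), 0 < l →
    ∀ w : M → ℝ, P.Sm w → (∃ W, ∀ m, |w m| ≤ W) →
      (∀ i γ, ∀ z ∈ (P.e i).target, 0 ≤ l * P.loc i γ w z - P.Lo i (P.loc i γ w) z) →
      ∀ m, 0 ≤ w m

/-- **INV**: invariance of the equation under holomorphic isometries. -/
def InvStatement : Prop :=
  ∀ (n : ℕ) (M Γ : Type) [TopologicalSpace M] [Group Γ] (P : PS n M Γ) (T : M → M), P.IsIso T →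
    ∀ w : M → ℝ, P.Sm w → P.Sm (fun m => w (T m)) ∧
      ∀ (l : ℝ) (f : M → ℝ), P.IsSol l w f → P.IsSol l (fun m => w (T m)) (fun m => f (T m))

/-- **LIM**: the positive solution of maximal logarithmic gradient. `R` is the relation
equality of the coordinates in `N`. -/
def LimStatement : Prop :=
  ∀ (n : ℕ) (M Γ : Type) [TopologicalSpace M] [ConnectedSpace M] [Group Γ] (P : PS n M Γ)
    (R : M → M → Prop), (∀ γ m m', R m m' → R (P.ac γ m) (P.ac γ m')) →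
    (∀ m m', R m m' → ∃ T : M → M, P.IsIso T ∧ T m = m' ∧ ∀ p, R p (T p)) →
    ∀ f : ℕ → M → ℝ, (∀ k, P.Sm (f k)) → (∀ k, ∃ A B, P.C1b A B (f k)) → (∀ k m, 0 ≤ f k m) →
    (∀ k, ∃ m, 0 < f k m) → (∀ k m m', R m m' → f k m = f k m') →
    (∀ m, ∃ U ∈ 𝓝 m, ∀ᶠ k in atTop, ∀ m' ∈ U, f k m' = 0) →
    ∃ l : ℝ, 0 < l ∧ ∃ G : M → ℝ, P.Sm G ∧ (∀ m, 0 < G m) ∧ P.IsSol l G (fun _ => 0) ∧
      (∀ m m', R m m' → G m = G m') ∧
      ∃ S : ℝ, (∀ i γ, ∀ z ∈ ball (P.c i) (P.r i), P.Q i γ G z ≤ S) ∧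
        ∃ i γ, ∃ z ∈ closedBall (P.c i) (P.r i), P.Q i γ G z = S

/-! ## Geometry -/

section geo
variable {X : Type} [TopologicalSpace X] [ChartedSpace (Cm n) X] {w : FormM n X}

/-- the patch system `P` is made of restrictions of charts of the atlas of `S.M`, the metric of
`S.M` and the deck group -/
structure Compat (S : Split n X w) (P : PS n S.M (Deck S.π)) : Prop where
  act : ∀ γ m, P.ac γ m = (γ : S.M ≃ₜ S.M) m
  atl : ∀ i, ∃ e' : Chart n S.M, e' ∈ atlas (Cm n) S.M ∧ (P.e i).source ⊆ e'.source ∧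
    (∀ m, P.e i m = e' m) ∧ (∀ z, (P.e i).symm z = e'.symm z) ∧
    ∀ z ∈ (P.e i).target, P.g i z = pullM S.π w e' z

/-- the same coordinate in `Y 1 × Y 2` -/
def SameN (S : Split n X w) (m m' : S.M) : Prop := ∀ i, i ≠ 0 → S.Φ m i = S.Φ m' i

end geo

/-- **PATCH**: existence of a patch system. -/
def PatchStatement : Prop :=
  ∀ (n : ℕ) (X : Type) [TopologicalSpace X] [T2Space X] [CompactSpace X] [ConnectedSpace X]
    [ChartedSpace (Cm n) X] [IsManifold 𝓘(ℂ, Cm n) ω X] (w : FormM n X),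
    IsKahler w → ∀ S : Split n X w, ∃ P : PS n S.M (Deck S.π), Compat S P

/-- **BUMP**: the functions `f k`, if `Y i₀` is not compact. -/
def BumpStatement : Prop :=
  ∀ (n : ℕ) (X : Type) [TopologicalSpace X] [T2Space X] [CompactSpace X] [ConnectedSpace X]
    [ChartedSpace (Cm n) X] [IsManifold 𝓘(ℂ, Cm n) ω X] (w : FormM n X),
    IsKahler w → ∀ (S : Split n X w) (P : PS n S.M (Deck S.π)), Compat S P →
    ∀ i₀ : Fin 3, i₀ ≠ 0 → ¬ CompactSpace (S.Y i₀) →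
    ∃ f : ℕ → S.M → ℝ, (∀ k, P.Sm (f k)) ∧ (∀ k, ∃ A B, P.C1b A B (f k)) ∧ (∀ k m, 0 ≤ f k m) ∧
      (∀ k, ∃ m, 0 < f k m) ∧ (∀ k m m', SameN S m m' → f k m = f k m') ∧
      (∀ m, ∃ U ∈ 𝓝 m, ∀ᶠ k in atTop, ∀ m' ∈ U, f k m' = 0)

/-- **TRANS**: the translations of `Y 0 = ℂ^(d 0)` are holomorphic isometries of `M`. -/
def TransStatement : Prop :=
  ∀ (n : ℕ) (X : Type) [TopologicalSpace X] [T2Space X] [CompactSpace X] [ConnectedSpace X]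
    [ChartedSpace (Cm n) X] [IsManifold 𝓘(ℂ, Cm n) ω X] (w : FormM n X),
    IsKahler w → ∀ (S : Split n X w) (P : PS n S.M (Deck S.π)), Compat S P →
    ∀ m m', SameN S m m' → ∃ T : S.M → S.M, P.IsIso T ∧ T m = m' ∧ ∀ p, SameN S p (T p)

/-- **BOCH**: a positive solution of maximal logarithmic gradient gives a parallel field which is
not tangent to `Y 0`. -/
def BochStatement : Prop :=
  ∀ (n : ℕ) (X : Type) [TopologicalSpace X] [T2Space X] [CompactSpace X] [ConnectedSpace X]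
    [ChartedSpace (Cm n) X] [IsManifold 𝓘(ℂ, Cm n) ω X] (w : FormM n X),
    IsKahler w → RicNonneg w → ∀ (S : Split n X w) (P : PS n S.M (Deck S.π)), Compat S P →
    ∀ (l : ℝ), 0 < l → ∀ G : S.M → ℝ, P.Sm G → (∀ m, 0 < G m) → P.IsSol l G (fun _ => 0) →
      (∀ m m', SameN S m m' → G m = G m') →
      ∀ s : ℝ, (∀ i γ, ∀ z ∈ ball (P.c i) (P.r i), P.Q i γ G z ≤ s) →
        (∃ i γ, ∃ z ∈ closedBall (P.c i) (P.r i), P.Q i γ G z = s) → False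

/-- **D2** from the packages -/
theorem d2_of (hLim : LimStatement) (hP : PatchStatement) (hB : BumpStatement)
    (hT : TransStatement) (hBo : BochStatement) : D2Statement := by
  intro n X _ _ _ _ _ _ w hw hR S
  have key : ∀ i₀ : Fin 3, i₀ ≠ 0 → CompactSpace (S.Y i₀) := by
    intro i₀ hi₀
    by_contra hc
    obtain ⟨P, hC⟩ := hP n X w hw S
    obtain ⟨f, h1, h2, h3, h4, h5, h6⟩ := hB n X w hw S P hC i₀ hi₀ hc
    have hconn : ConnectedSpace S.M := inferInstance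
    obtain ⟨l, hl, G, hG, hGp, hGs, hGR, s, hs, hs'⟩ := hLim n S.M (Deck S.π) P (SameN S)
      (by
        intro γ m m' h i hi
        rw [hC.act, hC.act, S.equiv, S.equiv, h i hi])
      (hT n X w hw S P hC) f h1 h2 h3 h4 h5 h6
    exact hBo n X w hw hR S P hC l hl G hG hGp hGs hGR s hs hs'
  exact ⟨key 1 (by decide), key 2 (by decide)⟩

end Vale.Agent.P299.H760
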