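import Vale.Agent.P299.H760.Err

/-! # Patch systems: the solver (helper760) -/

open scoped Manifold ContDiff ComplexOrder Topology
open Vale.Agent.P272.K Filter Metric Set

set_option maxSynthPendingDepth 3

noncomputable section

namespace Vale.Agent.P299.H760

variable {n : ℕ}

theorem resBd_mono {E : Type} [NormedAddCommGroup E] [NormedSpace ℝ E] {α l C N C' N' : ℝ}
    {v : E → ℝ} (hl : 0 < l) (h : LIN.ResBd α l C N v) (hCN : C * N ≤ C' * N') :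
    LIN.ResBd α l C' N' v := by
  have hlp : ∀ r : ℝ, 0 ≤ l ^ r := fun r => (Real.rpow_pos_of_pos hl r).le
  have key : ∀ X : ℝ, 0 ≤ X → C * N * X ≤ C' * N' * X := fun X hX =>
    mul_le_mul_of_nonneg_right hCN hX
  exact ⟨V.HB.mono h.zero (key _ (hlp _)) (key _ (hlp _)),
    V.HB.mono h.one (key _ (hlp _)) (key _ (hlp _)), V.HB.mono h.two (key _ (hlp _)) hCN⟩

namespace PS

variable {M Γ : Type} [TopologicalSpace M] [Group Γ] {P : PS n M Γ}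
  {i j : Fin P.N} {γ δ : Γ} {m : M} {z : Cm n}

/-- the class of functions of the Neumann series -/
structure Cl (P : PS n M Γ) (A B : ℝ) (f : M → ℝ) : Prop where
  c1 : ∀ i γ, ∀ z ∈ (P.e i).target, ContDiffAt ℝ 1 (P.loc i γ f) z
  bd : P.C1b A B f

/-- Hölder bound for the data -/
theorem data_hb (P : PS n M Γ) : ∃ K : ℝ, 0 ≤ K ∧ ∀ (f : M → ℝ) (A B : ℝ), 0 ≤ A → 0 ≤ B →
    P.Cl A B f → ∀ i γ, LIN.HB (1 / 2 : ℝ)
      (fun z => V.cut (P.c i) (2 * P.r i) z • P.loc i γ f z) A (K * (A + B)) := by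
  refine ⟨∑ i, ((8 * P.r i) ^ (1 / 2 : ℝ) + (2 * P.r i) ^ (-(1 / 2) : ℝ)),
    Finset.sum_nonneg fun i _ => ?_, fun f A B hA hB hf i γ => ?_⟩
  · have := P.r_pos i
    positivity
  have hr := P.r_pos i
  have h8 : 0 ≤ (8 * P.r i) ^ (1 / 2 : ℝ) := by positivity
  have h2 : 0 ≤ (2 * P.r i) ^ (-(1 / 2) : ℝ) := by positivity
  have hmem : ∀ x, ‖x - P.c i‖ ≤ 2 * (2 * P.r i) → x ∈ closedBall (P.c i) (4 * P.r i) := by
    intro x hx
    rw [mem_closedBall, dist_eq_norm]; linarith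
  have hlip : ∀ x ∈ closedBall (P.c i) (4 * P.r i), ∀ y ∈ closedBall (P.c i) (4 * P.r i),
      ‖P.loc i γ f x - P.loc i γ f y‖ ≤ B * ‖x - y‖ := fun x hx y hy =>
    (convex_closedBall (P.c i) (4 * P.r i)).norm_image_sub_le_of_norm_fderiv_le
      (fun w hw => (hf.c1 i γ w (P.ball_sub i hw)).differentiableAt (by norm_num))
      (fun w hw => hf.bd.2 i γ w hw) hy hx
  have h := V.cut_smul_hb (α := (1 / 2 : ℝ)) (by norm_num) (by norm_num) (x₀ := P.c i)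
    (r := 2 * P.r i) (by linarith) (c := P.loc i γ f) (M := A)
    (K := (8 * P.r i) ^ (1 / 2 : ℝ) * B) hA (mul_nonneg h8 hB)
    (fun x hx => hf.bd.1 _) (fun x y hx hy => ?_)
  · refine V.HB.mono h le_rfl ?_
    have h3 : (8 * P.r i) ^ (1 / 2 : ℝ) + (2 * P.r i) ^ (-(1 / 2) : ℝ) ≤
        ∑ i, ((8 * P.r i) ^ (1 / 2 : ℝ) + (2 * P.r i) ^ (-(1 / 2) : ℝ)) :=
      Finset.single_le_sum (f := fun i => (8 * P.r i) ^ (1 / 2 : ℝ) +
        (2 * P.r i) ^ (-(1 / 2) : ℝ)) (fun i _ => by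
          have := P.r_pos i
          positivity) (Finset.mem_univ i)
    refine le_trans ?_ (mul_le_mul_of_nonneg_right h3 (add_nonneg hA hB))
    nlinarith [mul_nonneg h8 hA, mul_nonneg h2 hB]
  · refine (hlip x (hmem x hx) y (hmem y hy)).trans ?_
    have h4 : ‖x - y‖ ≤ 8 * P.r i := by
      have e : x - y = (x - P.c i) - (y - P.c i) := by abel
      rw [e]
      refine (norm_sub_le _ _).trans ?_
      linarith
    have h5 : ‖x - y‖ = ‖x - y‖ ^ (1 / 2 : ℝ) * ‖x - y‖ ^ (1 / 2 : ℝ) := by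
      rw [← Real.sqrt_eq_rpow, Real.mul_self_sqrt (norm_nonneg _)]
    have h6 : ‖x - y‖ ^ (1 / 2 : ℝ) ≤ (8 * P.r i) ^ (1 / 2 : ℝ) :=
      Real.rpow_le_rpow (norm_nonneg _) h4 (by norm_num)
    have h7 : 0 ≤ ‖x - y‖ ^ (1 / 2 : ℝ) := by positivity
    calc B * ‖x - y‖ = B * (‖x - y‖ ^ (1 / 2 : ℝ) * ‖x - y‖ ^ (1 / 2 : ℝ)) := by rw [← h5]
      _ ≤ B * ((8 * P.r i) ^ (1 / 2 : ℝ) * ‖x - y‖ ^ (1 / 2 : ℝ)) := by gcongr
      _ = _ := by ring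

/-- the local solutions -/
theorem exists_local (P : PS n M Γ) : ∃ C l₀ : ℝ, 0 ≤ C ∧ 1 ≤ l₀ ∧ ∀ l : ℝ, l₀ ≤ l →
    ∀ (f : M → ℝ) (A B : ℝ), 0 ≤ A → 0 ≤ B → P.Cl A B f →
    ∃ V : Fin P.N → Γ → Cm n → ℝ, ∀ i γ, ContDiff ℝ 2 (V i γ) ∧
      (∀ y ∈ closedBall (P.c i) (2 * P.r i),
        l * V i γ y - P.Lo i (V i γ) y = P.loc i γ f y) ∧
      LIN.ResBd (1 / 2 : ℝ) l C (l ^ ((1 / 2 : ℝ) / 2) * A + B) (V i γ) := by
  obtain ⟨K, hK, hKb⟩ := P.data_hb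
  choose C l₀ hC hl₀ hs using P.solve
  refine ⟨(∑ i, C i) * (1 + 2 * K), 1 + ∑ i, l₀ i,
    mul_nonneg (Finset.sum_nonneg fun i _ => hC i) (by linarith), ?_, ?_⟩
  · have : 0 ≤ ∑ i, l₀ i := Finset.sum_nonneg fun i _ => by linarith [hl₀ i]
    linarith
  intro l hl f A B hA hB hf
  have hl' : ∀ i, l₀ i ≤ l := fun i => by
    have := Finset.single_le_sum (f := l₀) (fun i _ => by linarith [hl₀ i]) (Finset.mem_univ i)
    linarith
  have hl1 : 1 ≤ l := by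
    have : 0 ≤ ∑ i, l₀ i := Finset.sum_nonneg fun i _ => by linarith [hl₀ i]
    linarith
  have hex : ∀ i γ, ∃ v : Cm n → ℝ, ContDiff ℝ 2 v ∧
      (∀ z ∈ closedBall (P.c i) (2 * P.r i), l * v z - Lop (fun y => opG (P.g i y)) v z =
        V.cut (P.c i) (2 * P.r i) z • P.loc i γ f z) ∧
      LIN.ResBd (1 / 2 : ℝ) l (C i) (l ^ ((1 / 2 : ℝ) / 2) * A + K * (A + B)) v := fun i γ =>
    hs i l (hl' i) _ _ _ (mul_nonneg hK (add_nonneg hA hB)) (hKb f A B hA hB hf i γ)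
  choose V hV hVe hVb using hex
  refine ⟨V, fun i γ => ⟨hV i γ, fun y hy => ?_, resBd_mono (by linarith) (hVb i γ) ?_⟩⟩
  · have h1 := hVe i γ y hy
    rw [Vale.Agent.P272.K.V.cut_eq_one (by linarith [P.r_pos i]) (by rwa [mem_closedBall, dist_eq_norm] at hy),
      one_smul] at h1
    exact h1
  · have hCi : C i ≤ ∑ i, C i := Finset.single_le_sum (f := C) (fun i _ => hC i) (Finset.mem_univ i)
    have hq : 1 ≤ l ^ ((1 / 2 : ℝ) / 2) := Real.one_le_rpow hl1 (by norm_num)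
    have h2 : l ^ ((1 / 2 : ℝ) / 2) * A + K * (A + B) ≤
        (1 + 2 * K) * (l ^ ((1 / 2 : ℝ) / 2) * A + B) := by
      nlinarith [mul_nonneg hK hA, mul_nonneg hK hB, mul_nonneg hK (mul_nonneg (sub_nonneg.2 hq) hA)]
    have h3 : 0 ≤ l ^ ((1 / 2 : ℝ) / 2) * A + K * (A + B) := by positivity
    calc C i * (l ^ ((1 / 2 : ℝ) / 2) * A + K * (A + B))
        ≤ (∑ i, C i) * ((1 + 2 * K) * (l ^ ((1 / 2 : ℝ) / 2) * A + B)) :=
          mul_le_mul hCi h2 h3 (Finset.sum_nonneg fun i _ => hC i)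
      _ = _ := by ring

/-- arithmetic of the step -/
theorem step_arith {K C N l : ℝ} (hK : 0 ≤ K) (hC : 0 ≤ C) (hN : 0 ≤ N) (hl : 1 ≤ l)
    (hs : 5 * K * C * l ^ (-((1 / 2 : ℝ) / 2)) ≤ 1 / 2) :
    l ^ ((1 / 2 : ℝ) / 2) * (K * (C * N * l ^ (-(1 + (1 / 2 : ℝ) / 2)) +
      C * N * l ^ (-((1 + (1 / 2 : ℝ)) / 2)))) +
    K * (C * N * l ^ (-(1 + (1 / 2 : ℝ) / 2)) + C * N * l ^ (-((1 + (1 / 2 : ℝ)) / 2)) +
      C * N * l ^ (-((1 / 2 : ℝ) / 2))) ≤ N / 2 := by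
  have hl0 : 0 < l := by linarith
  have e1 : l ^ ((1 / 2 : ℝ) / 2) * l ^ (-(1 + (1 / 2 : ℝ) / 2)) ≤ l ^ (-((1 / 2 : ℝ) / 2)) := by
    rw [← Real.rpow_add hl0]
    exact Real.rpow_le_rpow_of_exponent_le hl (by norm_num)
  have e2 : l ^ ((1 / 2 : ℝ) / 2) * l ^ (-((1 + (1 / 2 : ℝ)) / 2)) ≤
      l ^ (-((1 / 2 : ℝ) / 2)) := by
    rw [← Real.rpow_add hl0]
    exact Real.rpow_le_rpow_of_exponent_le hl (by norm_num)
  have e3 : l ^ (-(1 + (1 / 2 : ℝ) / 2)) ≤ l ^ (-((1 / 2 : ℝ) / 2)) :=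
    Real.rpow_le_rpow_of_exponent_le hl (by norm_num)
  have e4 : l ^ (-((1 + (1 / 2 : ℝ)) / 2)) ≤ l ^ (-((1 / 2 : ℝ) / 2)) :=
    Real.rpow_le_rpow_of_exponent_le hl (by norm_num)
  set q := l ^ (-((1 / 2 : ℝ) / 2)) with hq
  have hKC : 0 ≤ K * (C * N) := by positivity
  calc _ = K * (C * N) * (l ^ ((1 / 2 : ℝ) / 2) * l ^ (-(1 + (1 / 2 : ℝ) / 2)) +
          l ^ ((1 / 2 : ℝ) / 2) * l ^ (-((1 + (1 / 2 : ℝ)) / 2)) +
          l ^ (-(1 + (1 / 2 : ℝ) / 2)) + l ^ (-((1 + (1 / 2 : ℝ)) / 2)) + q) := by ring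
    _ ≤ K * (C * N) * (q + q + q + q + q) := by gcongr
    _ = (5 * K * C * q) * N := by ring
    _ ≤ 1 / 2 * N := mul_le_mul_of_nonneg_right hs hN
    _ = N / 2 := by ring

/-- **the solver**, `C^{2,α}` form -/
theorem exists_glue (P : PS n M Γ) : ∃ C l₀ : ℝ, 0 ≤ C ∧ 1 ≤ l₀ ∧ ∀ l : ℝ, l₀ ≤ l →
    ∀ (f : M → ℝ) (A B : ℝ), 0 ≤ A → 0 ≤ B → P.Cl A B f →
    ∃ V : Fin P.N → Γ → Cm n → ℝ, (∀ i γ, ContDiff ℝ 2 (V i γ) ∧
      LIN.ResBd (1 / 2 : ℝ) l C (l ^ ((1 / 2 : ℝ) / 2) * A + B) (V i γ)) ∧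
      P.IsSol l (P.glue V) f := by
  obtain ⟨C, l₁, hC, hl₁, hloc⟩ := P.exists_local
  obtain ⟨K, hK, herr⟩ := P.err_bound
  obtain ⟨l₂, hl₂⟩ : ∃ l₂ : ℝ, ∀ l, l₂ ≤ l →
      5 * K * C * l ^ (-((1 / 2 : ℝ) / 2)) ≤ 1 / 2 := by
    have ht : Tendsto (fun l : ℝ => 5 * K * C * l ^ (-((1 / 2 : ℝ) / 2))) atTop
        (𝓝 (5 * K * C * 0)) := (tendsto_rpow_neg_atTop (by norm_num)).const_mul _
    rw [mul_zero] at ht
    obtain ⟨l₂, hl₂⟩ := eventually_atTop.1 (ht.eventually (Iic_mem_nhds (by norm_num : (0:ℝ) < 1 / 2)))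
    exact ⟨l₂, fun l hl => hl₂ l hl⟩
  refine ⟨2 * C, max l₁ l₂, by positivity, hl₁.trans (le_max_left _ _), ?_⟩
  intro l hl f A B hA hB hf
  have hl1 : 1 ≤ l := hl₁.trans ((le_max_left _ _).trans hl)
  have hl0 : 0 < l := by linarith
  have hlp : ∀ r : ℝ, 0 ≤ l ^ r := fun r => (Real.rpow_pos_of_pos hl0 r).le
  -- the iteration
  let S : Type := {p : (M → ℝ) × ℝ × ℝ // 0 ≤ p.2.1 ∧ 0 ≤ p.2.2 ∧ P.Cl p.2.1 p.2.2 p.1}
  let nrm : S → ℝ := fun p => l ^ ((1 / 2 : ℝ) / 2) * p.1.2.1 + p.1.2.2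
  have hnrm0 : ∀ p : S, 0 ≤ nrm p := fun p => add_nonneg (mul_nonneg (hlp _) p.2.1) p.2.2.1
  have step' : ∀ p : S, ∃ (W : Fin P.N → Γ → Cm n → ℝ) (q : S),
      (∀ i γ, ContDiff ℝ 2 (W i γ) ∧ LIN.ResBd (1 / 2 : ℝ) l C (nrm p) (W i γ)) ∧
      nrm q ≤ nrm p / 2 ∧ ∀ (j : Fin P.N) (δ : Γ) (z : Cm n),
        ∑ i ∈ P.A0 (P.pt j δ z), P.psi l i (P.tau j δ i (P.gam i (P.pt j δ z)) z)
          (LIN.jet (W i (P.gam i (P.pt j δ z))) (P.tau j δ i (P.gam i (P.pt j δ z)) z)) =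
        p.1.1 (P.pt j δ z) - q.1.1 (P.pt j δ z) := by
    rintro ⟨⟨f, A, B⟩, hA, hB, hf⟩
    obtain ⟨W, hW⟩ := hloc l ((le_max_left _ _).trans hl) f A B hA hB hf
    set N : ℝ := l ^ ((1 / 2 : ℝ) / 2) * A + B with hN
    have hN0 : 0 ≤ N := add_nonneg (mul_nonneg (hlp _) hA) hB
    have hCN : 0 ≤ C * N := mul_nonneg hC hN0
    obtain ⟨h1, h2, h3⟩ := herr W (fun i γ => (hW i γ).1)
      (C * N * l ^ (-(1 + (1 / 2 : ℝ) / 2))) (C * N * l ^ (-((1 + (1 / 2 : ℝ)) / 2)))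
      (C * N * l ^ (-((1 / 2 : ℝ) / 2))) (mul_nonneg hCN (hlp _)) (mul_nonneg hCN (hlp _))
      (mul_nonneg hCN (hlp _)) (fun i γ z => (hW i γ).2.2.zero.sup z)
      (fun i γ z => (hW i γ).2.2.one.sup z) (fun i γ z => (hW i γ).2.2.two.sup z)
    refine ⟨W, ⟨(P.err W, _, _), ?_, ?_, ⟨h1, h2, h3⟩⟩, fun i γ => ⟨(hW i γ).1, (hW i γ).2.2⟩,
      ?_, ?_⟩
    · have e1 := mul_nonneg hCN (hlp (-(1 + (1 / 2 : ℝ) / 2)))
      have e2 := mul_nonneg hCN (hlp (-((1 + (1 / 2 : ℝ)) / 2)))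
      exact mul_nonneg hK (add_nonneg e1 e2)
    · have e1 := mul_nonneg hCN (hlp (-(1 + (1 / 2 : ℝ) / 2)))
      have e2 := mul_nonneg hCN (hlp (-((1 + (1 / 2 : ℝ)) / 2)))
      have e3 := mul_nonneg hCN (hlp (-((1 / 2 : ℝ) / 2)))
      exact mul_nonneg hK (add_nonneg (add_nonneg e1 e2) e3)
    · exact step_arith hK hC hN0 hl1 (hl₂ l ((le_max_right _ _).trans hl))
    · intro j δ z
      exact eq_err (fun i γ => (hW i γ).2.1) j δ z
  choose W Q hW hQ hE using step'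
  let s : ℕ → S := fun k => Q^[k] ⟨(f, A, B), hA, hB, hf⟩
  have hs0 : s 0 = ⟨(f, A, B), hA, hB, hf⟩ := rfl
  have hs1 : ∀ k, s (k + 1) = Q (s k) := fun k => Function.iterate_succ_apply' _ _ _
  set N : ℝ := l ^ ((1 / 2 : ℝ) / 2) * A + B with hN
  have hnrm : ∀ k, nrm (s k) ≤ N * (1 / 2) ^ k := by
    intro k
    induction k with
    | zero => simp [hs0, nrm, hN]
    | succ k ih =>
      rw [hs1]
      refine (hQ _).trans ?_
      rw [pow_succ]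
      linarith
  have hser : ∀ i γ, ContDiff ℝ 2 (fun x => ∑' k, W (s k) i γ x) ∧
      LIN.ResBd (1 / 2 : ℝ) l (2 * C) N (fun x => ∑' k, W (s k) i γ x) ∧
      ∀ x, HasSum (fun k => LIN.jet (W (s k) i γ) x)
        (LIN.jet (fun x => ∑' k, W (s k) i γ x) x) := fun i γ =>
    V.series_c2 (fun k => W (s k) i γ) (fun k => (hW (s k) i γ).1)
      (fun k => V.ResBd.mono_N hl0 hC (hW (s k) i γ).2 (hnrm k))
  refine ⟨fun i γ x => ∑' k, W (s k) i γ x, fun i γ => ⟨(hser i γ).1, (hser i γ).2.1⟩, ?_⟩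
  intro j δ z hz
  rw [eq_psi (fun i γ => (hser i γ).1) l δ hz]
  have hF : Summable fun k => (s k).1.1 (P.pt j δ z) := by
    refine Summable.of_norm_bounded
      ((hasSum_geometric_two.mul_left N).summable) fun k => ?_
    refine ((s k).2.2.2.bd.1 (P.pt j δ z)).trans ?_
    have h1 := hnrm k
    have h2 : 0 ≤ (s k).1.2.2 := (s k).2.2.1
    have h3 : 0 ≤ (s k).1.2.1 := (s k).2.1
    have h4 : 1 ≤ l ^ ((1 / 2 : ℝ) / 2) := Real.one_le_rpow hl1 (by norm_num)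
    simp only [nrm] at h1
    nlinarith
  have h4 : HasSum (fun k => ∑ i ∈ P.A0 (P.pt j δ z),
      P.psi l i (P.tau j δ i (P.gam i (P.pt j δ z)) z)
        (LIN.jet (W (s k) i (P.gam i (P.pt j δ z))) (P.tau j δ i (P.gam i (P.pt j δ z)) z)))
      (∑ i ∈ P.A0 (P.pt j δ z), P.psi l i (P.tau j δ i (P.gam i (P.pt j δ z)) z)
        (LIN.jet (fun x => ∑' k, W (s k) i (P.gam i (P.pt j δ z)) x)
          (P.tau j δ i (P.gam i (P.pt j δ z)) z))) :=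
    hasSum_sum fun i _ => (P.psi l i _).hasSum ((hser i _).2.2 _)
  rw [← h4.tsum_eq]
  simp only [hE, ← hs1]
  rw [hF.tsum_sub ((summable_nat_add_iff 1).2 hF), hF.tsum_eq_zero_add]
  simp [hs0, loc_apply]

end PS

/-- **SOLVER** -/
theorem solver : SolverStatement := by
  intro n M Γ _ _ P
  obtain ⟨C, l₀, hC, hl₀, h⟩ := P.exists_glue
  refine ⟨l₀, hl₀, fun l hl f A B hf hb => ?_⟩
  have hl0 : 0 < l := by linarith
  obtain ⟨V, hV, hsol⟩ := h l hl f |A| |B| (abs_nonneg _) (abs_nonneg _)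
    ⟨fun i γ z hz => (hf i γ z hz).of_le (by norm_cast),
      fun m => (hb.1 m).trans (le_abs_self _), fun i γ z hz => (hb.2 i γ z hz).trans (le_abs_self _)⟩
  have hsm : P.Sm (P.glue V) := by
    intro j δ
    refine smooth_of_eq (α := 1 / 2) (by norm_num) (by norm_num) (PS.ellOn P j)
      (f := P.loc j δ f) (hf j δ) ?_ (l := l) (hsol j δ)
    refine R.HC.of_local fun z hz => ?_
    -- a small ball where the function is a finite sum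
    have hev := PS.glueT_loc (PS.adm_rh V) δ hz
    have hact : ∀ᶠ y in 𝓝 z, ∀ i ∈ P.A0 (P.pt j δ z),
        y ∈ (P.e j).target ∧ P.act i (P.gam i (P.pt j δ z)) (P.pt j δ y) := by
      rw [Filter.eventually_all_finset]
      exact fun i hi => PS.pt_eventually hz (PS.A0_mem hi).1
    obtain ⟨ρ, hρ, hb⟩ := Metric.mem_nhds_iff.1 (Filter.inter_mem (Filter.inter_mem hev hact)
      ((P.e j).open_target.mem_nhds hz))
    refine ⟨ρ, hρ, fun y hy => (hb hy).2, ?_⟩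
    refine R.HC.congr isOpen_ball (f := fun y => ∑ i ∈ P.A0 (P.pt j δ z),
      P.rh i (P.tau j δ i (P.gam i (P.pt j δ z)) y) *
        V i (P.gam i (P.pt j δ z)) (P.tau j δ i (P.gam i (P.pt j δ z)) y)) ?_
      fun y hy => ((hb hy).1.1 : P.loc j δ (P.glueT _) y = _).symm
    refine R.HC.sum isOpen_ball _ fun i hi => ?_
    refine HC_comp_right (f := fun y => P.rh i y * V i (P.gam i (P.pt j δ z)) y)
      (by norm_num) (by norm_num) isOpen_ball (P.e i).open_target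
      (fun y hy => ?_) (fun y hy => PS.tau_mem ((hb hy).1.2 i hi).2) ?_
    · exact ((PS.tau_hol ((hb hy).1.2 i hi).1 ((hb hy).1.2 i hi).2).restrict_scalars ℝ).of_le
        (by exact le_top)
    · refine HC_mul (by norm_num) (by norm_num) (P.e i).open_target ?_ ?_
      · exact R.HC.of_contDiff (by norm_num) (by norm_num) (P.e i).open_target fun y hy =>
          (PS.rh_smooth hy).of_le (by norm_cast)
      · exact R.HC.mono_set (P.e i).open_target (subset_univ _)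
          (HC_of_resBd (hV i _).1 (hV i _).2)
  refine ⟨P.glue V, hsm, ?_, hsol⟩
  obtain ⟨K, hK, hKb⟩ := P.Wf_bound
  set N : ℝ := l ^ ((1 / 2 : ℝ) / 2) * |A| + |B| with hN
  refine ⟨P.N * (K * |C * N * l ^ (-(1 + (1 / 2 : ℝ) / 2))|), fun m => ?_⟩
  have e1 : P.glue V m = _ := PS.glueT_apply (PS.adm_rh V) m
  rw [e1]
  refine (Finset.abs_sum_le_sum_abs _ _).trans ?_
  have e2 : ∀ i ∈ P.A0 m, |P.rh i (P.co i (P.gam i m) m) * V i (P.gam i m)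
      (P.co i (P.gam i m) m)| ≤ K * |C * N * l ^ (-(1 + (1 / 2 : ℝ) / 2))| := by
    intro i hi
    rw [abs_mul]
    refine mul_le_mul (hKb i _ (PS.two_lt_four i (PS.A0_mem hi).2)).2.2 ?_ (abs_nonneg _) hK
    exact ((hV i _).2.zero.sup _).trans (le_abs_self _)
  refine (Finset.sum_le_sum e2).trans ?_
  rw [Finset.sum_const, nsmul_eq_mul]
  exact mul_le_mul_of_nonneg_right (PS.card_A0 m) (by positivity)

end Vale.Agent.P299.H760
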