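import Vale.Agent.P299.H760.Iface
import Vale.Agent.P299.H760.Solver
import Vale.Agent.P299.H58.Patch
import Vale.Agent.P299.H85.Ultra
import Vale.Agent.P299.H587.SMP
import Vale.Agent.P299.H588.Log
import Vale.Agent.P299.H726.Bump
import Vale.Agent.P299.H726.Trans
import Vale.Agent.P299.H738.BochSt
import Vale.Agent.P299.H792.Lim
import Vale.Agent.P299.H975.WmpInv
import Vale.Agent.P299.H104.Inter

/-!
# P299, package D2: assembly of the maximal gradient proof

The factors `Y 1` and `Y 2` of the splitting are compact.
-/

noncomputable section

namespace Vale.Agent.P299.H760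

theorem d2_of_interior (hI : InteriorStatement) : D.D2Statement :=
  d2_of (H792.lim hI H588.log_statement H587.smp H85.ultra solver H975.wmp H975.inv)
    H58.patchStatement H726.bump H726.trans (H738.bochStatement H587.smp)

/-- **D2**: the factors `Y 1` and `Y 2` are compact -/
theorem d2 : D.D2Statement := d2_of_interior H104.interior

end Vale.Agent.P299.H760
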