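import Vale.Agent.P299.H760.Patch

/-! # Patch systems: uniform bounds (helper760) -/

open scoped Manifold ContDiff ComplexOrder Topology Matrix
open Vale.Agent.P272.K Filter Metric Set

set_option maxSynthPendingDepth 3

noncomputable section

namespace Vale.Agent.P299.H760

variable {n : ℕ}

lemma quad_eq' (M : Matrix (Fin n) (Fin n) ℂ) (ξ : Cm n) :
    quad M ξ = ξ ⬝ᵥ (M *ᵥ fun i => cj (ξ i)) := by
  rw [quad_eq]
  congr 1
  funext i
  simp [cj]

lemma quad_form' (J M : Matrix (Fin n) (Fin n) ℂ) (ξ : Cm n) :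
    quad (J.transpose * M * J.map (starRingEnd ℂ)) ξ = quad M (J *ᵥ ξ) := by
  rw [quad_eq', quad_eq', ← Matrix.mulVec_mulVec, ← Matrix.mulVec_mulVec, Matrix.dotProduct_mulVec,
    Matrix.vecMul_transpose]
  congr 2
  funext i
  simp [Matrix.mulVec, dotProduct, cj, map_sum]

lemma quad_one_re (ξ : Cm n) : (quad (1 : Matrix (Fin n) (Fin n) ℂ) ξ).re = ∑ i, ‖ξ i‖ ^ 2 := by
  rw [quad_eq', Matrix.one_mulVec]
  simp only [dotProduct, Complex.re_sum]
  refine Finset.sum_congr rfl fun i _ => ?_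
  rw [← Complex.normSq_eq_norm_sq]
  simp [cj, Complex.mul_conj]

lemma norm_sq_le_quad_one (ξ : Cm n) : ‖ξ‖ ^ 2 ≤ (quad (1 : Matrix (Fin n) (Fin n) ℂ) ξ).re := by
  rw [quad_one_re]
  rcases isEmpty_or_nonempty (Fin n) with h | h
  · have : ξ = 0 := Subsingleton.elim _ _
    rw [this, norm_zero]
    simp
  · obtain ⟨i, hi⟩ : ∃ i, ‖ξ‖ = ‖ξ i‖ := by
      obtain ⟨i, hi⟩ := Finite.exists_max fun i => ‖ξ i‖
      exact ⟨i, le_antisymm ((pi_norm_le_iff_of_nonneg (norm_nonneg _)).2 hi) (norm_le_pi_norm ξ i)⟩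
    rw [hi]
    exact Finset.single_le_sum (f := fun i => ‖ξ i‖ ^ 2) (fun i _ => by positivity)
      (Finset.mem_univ i)

lemma quad_one_le (ξ : Cm n) : (quad (1 : Matrix (Fin n) (Fin n) ℂ) ξ).re ≤ n * ‖ξ‖ ^ 2 := by
  rw [quad_one_re]
  calc ∑ i, ‖ξ i‖ ^ 2 ≤ ∑ _i : Fin n, ‖ξ‖ ^ 2 :=
        Finset.sum_le_sum fun i _ => by
          have := norm_le_pi_norm ξ i
          gcongr
    _ = _ := by simp

namespace PS

variable {M Γ : Type} [TopologicalSpace M] [Group Γ] (P : PS n M Γ)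

/-- the metric in the patches is comparable to the Euclidean one -/
theorem metric_bounds : ∃ K : ℝ, 0 < K ∧ ∀ i, ∀ z ∈ closedBall (P.c i) (4 * P.r i), ∀ ξ : Cm n,
    ‖ξ‖ ^ 2 ≤ K * (quad (P.g i z) ξ).re ∧ (quad (P.g i z) ξ).re ≤ K * ‖ξ‖ ^ 2 := by
  have h : ∀ i, ∃ K : ℝ, 0 < K ∧ ∀ z ∈ closedBall (P.c i) (4 * P.r i), ∀ ξ : Cm n,
      ‖ξ‖ ^ 2 ≤ K * (quad (P.g i z) ξ).re ∧ (quad (P.g i z) ξ).re ≤ K * ‖ξ‖ ^ 2 := by
    intro i
    have hc : IsCompact (closedBall (P.c i) (4 * P.r i)) := isCompact_closedBall _ _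
    have hg : ∀ p q, ContinuousOn (fun z => P.g i z p q) (closedBall (P.c i) (4 * P.r i)) :=
      fun p q z hz => (P.g_smooth i z (P.ball_sub i hz) p q).continuousAt.continuousWithinAt
    have h1 : ∀ p q, ContinuousOn (fun _ : Cm n => (1 : Matrix (Fin n) (Fin n) ℂ) p q)
      (closedBall (P.c i) (4 * P.r i)) := fun p q => continuousOn_const
    obtain ⟨C1, hC1, h2⟩ := exists_quad_lower hc (P.g i) (fun _ => 1) hg h1
      fun z hz => P.g_pos i z (P.ball_sub i hz)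
    obtain ⟨C2, hC2, h3⟩ := exists_quad_lower hc (fun _ => 1) (P.g i) h1 hg
      fun z hz => Matrix.PosDef.one
    refine ⟨C1 + C2 * n, by positivity, fun z hz ξ => ⟨?_, ?_⟩⟩
    · have h4 := h2 z hz ξ
      have h5 := norm_sq_le_quad_one ξ
      have h6 : 0 ≤ (quad (P.g i z) ξ).re := by
        by_contra hneg
        push Not at hneg
        nlinarith [sq_nonneg ‖ξ‖]
      have h7 : 0 ≤ C2 * n * (quad (P.g i z) ξ).re := by positivity
      nlinarith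
    · have h4 := h3 z hz ξ
      have h5 := quad_one_le ξ
      have h6 : C2 * (quad (1 : Matrix (Fin n) (Fin n) ℂ) ξ).re ≤ C2 * (n * ‖ξ‖ ^ 2) :=
        mul_le_mul_of_nonneg_left h5 hC2.le
      have h7 : 0 ≤ C1 * ‖ξ‖ ^ 2 := by positivity
      nlinarith
  choose K hK hKb using h
  refine ⟨1 + ∑ i, K i, by
    have : 0 ≤ ∑ i, K i := Finset.sum_nonneg fun i _ => (hK i).le
    linarith, fun i z hz ξ => ?_⟩
  have hle : K i ≤ 1 + ∑ i, K i := by
    have := Finset.single_le_sum (f := K) (fun i _ => (hK i).le) (Finset.mem_univ i)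
    linarith
  have h0 : 0 ≤ (quad (P.g i z) ξ).re := by
    have := (hKb i z hz ξ).1
    by_contra hneg
    push Not at hneg
    nlinarith [sq_nonneg ‖ξ‖, hK i]
  exact ⟨(hKb i z hz ξ).1.trans (mul_le_mul_of_nonneg_right hle h0),
    (hKb i z hz ξ).2.trans (mul_le_mul_of_nonneg_right hle (sq_nonneg _))⟩

/-- the first derivatives of the transitions are bounded -/
theorem tau_bound : ∃ K : ℝ, 0 ≤ K ∧ ∀ (j : Fin P.N) (δ : Γ) (i : Fin P.N) (γ : Γ) (z : Cm n),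
    z ∈ closedBall (P.c j) (4 * P.r j) → P.act i γ (P.pt j δ z) →
    P.tau j δ i γ z ∈ closedBall (P.c i) (4 * P.r i) → ‖fderiv ℝ (P.tau j δ i γ) z‖ ≤ K := by
  obtain ⟨K, hK, hKb⟩ := P.metric_bounds
  refine ⟨K, hK.le, fun j δ i γ z hz hact hτ => ?_⟩
  have hzt := P.ball_sub j hz
  have hol := (tau_hol hzt hact).differentiableAt (by simp)
  have hiso := tau_iso hzt hact
  refine ContinuousLinearMap.opNorm_le_bound _ hK.le fun ξ => ?_
  have h1 : fderiv ℝ (P.tau j δ i γ) z ξ = jmat (P.tau j δ i γ) z *ᵥ ξ := by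
    rw [fderivR_of_holo hol]
    funext p
    rw [jmat_mulVec hol]
    rfl
  rw [h1]
  have h2 := (hKb i _ hτ (jmat (P.tau j δ i γ) z *ᵥ ξ)).1
  rw [← quad_form', ← hiso] at h2
  have h3 := (hKb j _ hz ξ).2
  have h4 : ‖jmat (P.tau j δ i γ) z *ᵥ ξ‖ ^ 2 ≤ (K * ‖ξ‖) ^ 2 := by
    calc _ ≤ K * (quad (P.g j z) ξ).re := h2
      _ ≤ K * (K * ‖ξ‖ ^ 2) := mul_le_mul_of_nonneg_left h3 hK.le
      _ = _ := by ring
  exact (pow_le_pow_iff_left₀ (norm_nonneg _) (by positivity) (by norm_num)).1 h4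

end PS

end Vale.Agent.P299.H760
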