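import Vale.Agent.P299.H760.Iface

/-! # Second derivatives of products (helper760) -/

open scoped ContDiff Topology
open Filter Metric Set

set_option maxSynthPendingDepth 3

noncomputable section

namespace Vale.Agent.P299.H760

variable {E : Type} [NormedAddCommGroup E] [NormedSpace ℝ E]

/-- symmetric product of covectors -/
def sy (p q : E →L[ℝ] ℝ) : B2 E := p.smulRight q + q.smulRight p

/-- symmetric product as a continuous linear map in the second variable -/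
def syL (p : E →L[ℝ] ℝ) : (E →L[ℝ] ℝ) →L[ℝ] B2 E :=
  ContinuousLinearMap.smulRightL ℝ E (E →L[ℝ] ℝ) p +
    (ContinuousLinearMap.smulRightL ℝ E (E →L[ℝ] ℝ)).flip p

theorem syL_apply (p q : E →L[ℝ] ℝ) : syL p q = sy p q := rfl

/-- symmetric product as a continuous bilinear map -/
def syB : (E →L[ℝ] ℝ) →L[ℝ] (E →L[ℝ] ℝ) →L[ℝ] B2 E :=
  ContinuousLinearMap.smulRightL ℝ E (E →L[ℝ] ℝ) +
    (ContinuousLinearMap.smulRightL ℝ E (E →L[ℝ] ℝ)).flip

theorem syB_apply (p q : E →L[ℝ] ℝ) : syB p q = sy p q := rfl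

theorem norm_smulRight_le' (p q : E →L[ℝ] ℝ) : ‖(p.smulRight q : B2 E)‖ ≤ ‖p‖ * ‖q‖ :=
  (ContinuousLinearMap.norm_smulRight_apply p q).le

theorem norm_sy_le (p q : E →L[ℝ] ℝ) : ‖sy p q‖ ≤ 2 * ‖p‖ * ‖q‖ := by
  refine (norm_add_le _ _).trans ?_
  have h1 := norm_smulRight_le' p q
  have h2 := norm_smulRight_le' q p
  linarith [mul_comm ‖p‖ ‖q‖]

theorem fderiv_mul_ev {u v : E → ℝ} {z : E} (hu : ContDiffAt ℝ 2 u z) (hv : ContDiffAt ℝ 2 v z) :
    fderiv ℝ (fun y => u y * v y) =ᶠ[𝓝 z] fun y => u y • fderiv ℝ v y + v y • fderiv ℝ u y := by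
  filter_upwards [hu.eventually (by simp), hv.eventually (by simp)] with y h1 h2
  exact fderiv_fun_mul (h1.differentiableAt (by norm_num)) (h2.differentiableAt (by norm_num))

theorem hasFDerivAt_fderiv {u : E → ℝ} {z : E} (hu : ContDiffAt ℝ 2 u z) :
    HasFDerivAt (fderiv ℝ u) (fderiv ℝ (fderiv ℝ u) z) z :=
  ((hu.fderiv_right (m := 1) (by norm_num)).differentiableAt (by norm_num)).hasFDerivAt

/-- second derivative of a product -/
theorem fderiv2_mul {u v : E → ℝ} {z : E} (hu : ContDiffAt ℝ 2 u z) (hv : ContDiffAt ℝ 2 v z) :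
    fderiv ℝ (fderiv ℝ fun y => u y * v y) z = u z • fderiv ℝ (fderiv ℝ v) z +
      v z • fderiv ℝ (fderiv ℝ u) z + sy (fderiv ℝ u z) (fderiv ℝ v z) := by
  rw [(fderiv_mul_ev hu hv).fderiv_eq]
  have hu1 := (hu.differentiableAt (by norm_num)).hasFDerivAt
  have hv1 := (hv.differentiableAt (by norm_num)).hasFDerivAt
  have h1 := (hu1.smul (hasFDerivAt_fderiv hv)).add (hv1.smul (hasFDerivAt_fderiv hu))
  have h2 := h1.fderiv
  refine h2.trans ?_
  unfold sy
  abel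

/-- **the operator on a product** -/
theorem Lop_mul {a : E → B2 E →L[ℝ] ℝ} {u v : E → ℝ} {z : E} (hu : ContDiffAt ℝ 2 u z)
    (hv : ContDiffAt ℝ 2 v z) : Lop a (fun y => u y * v y) z =
      u z * Lop a v z + v z * Lop a u z + a z (sy (fderiv ℝ u z) (fderiv ℝ v z)) := by
  unfold Lop
  rw [fderiv2_mul hu hv, map_add, map_add, map_smul, map_smul, smul_eq_mul, smul_eq_mul]

theorem fderiv2_sum {ι : Type*} {s : Finset ι} {u : ι → E → ℝ} {z : E}
    (hu : ∀ i ∈ s, ContDiffAt ℝ 2 (u i) z) :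
    fderiv ℝ (fderiv ℝ fun y => ∑ i ∈ s, u i y) z = ∑ i ∈ s, fderiv ℝ (fderiv ℝ (u i)) z := by
  have h1 : fderiv ℝ (fun y => ∑ i ∈ s, u i y) =ᶠ[𝓝 z] fun y => ∑ i ∈ s, fderiv ℝ (u i) y := by
    have : ∀ᶠ y in 𝓝 z, ∀ i ∈ s, ContDiffAt ℝ 2 (u i) y := by
      rw [Filter.eventually_all_finset]
      exact fun i hi => (hu i hi).eventually (by simp)
    filter_upwards [this] with y hy
    exact fderiv_fun_sum fun i hi => (hy i hi).differentiableAt (by norm_num)
  rw [h1.fderiv_eq]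
  exact fderiv_fun_sum fun i hi => (hasFDerivAt_fderiv (hu i hi)).differentiableAt

theorem Lop_sum {ι : Type*} {s : Finset ι} {a : E → B2 E →L[ℝ] ℝ} {u : ι → E → ℝ} {z : E}
    (hu : ∀ i ∈ s, ContDiffAt ℝ 2 (u i) z) :
    Lop a (fun y => ∑ i ∈ s, u i y) z = ∑ i ∈ s, Lop a (u i) z := by
  unfold Lop
  rw [fderiv2_sum hu, map_sum]

theorem Lop_const {a : E → B2 E →L[ℝ] ℝ} (c : ℝ) (z : E) : Lop a (fun _ => c) z = 0 := by
  unfold Lop
  have : fderiv ℝ (fun _ : E => c) = fun _ => 0 := by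
    funext y; exact fderiv_const_apply c
  rw [this]
  have h2 : fderiv ℝ (fun _ : E => (0 : E →L[ℝ] ℝ)) z = 0 := fderiv_const_apply 0
  rw [h2, map_zero]

end Vale.Agent.P299.H760
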