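import Vale.Agent.P299.H760.Glue
import Vale.Agent.P272.K.V.Final

/-! # Patch systems: the error term (helper760) -/

open scoped Manifold ContDiff ComplexOrder Topology
open Vale.Agent.P272.K Filter Metric Set

set_option maxSynthPendingDepth 3

noncomputable section

namespace Vale.Agent.P299.H760

variable {n : ℕ}

namespace PS

variable {M Γ : Type} [TopologicalSpace M] [Group Γ] {P : PS n M Γ}
  {i j : Fin P.N} {γ δ : Γ} {m : M} {z : Cm n}

/-- the functional giving `l w - Δ w` from the jets of the local functions -/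
def psi (P : PS n M Γ) (l : ℝ) (i : Fin P.N) (z : Cm n) : LIN.Jet (Cm n) →L[ℝ] ℝ :=
  (P.rh i z) • (l • ContinuousLinearMap.fst ℝ ℝ _ -
    (opG (P.g i z)).comp ((ContinuousLinearMap.snd ℝ _ _).comp (ContinuousLinearMap.snd ℝ ℝ _))) -
  (P.Wf i z).comp ((ContinuousLinearMap.fst ℝ ℝ _).prod
    ((ContinuousLinearMap.fst ℝ _ _).comp (ContinuousLinearMap.snd ℝ ℝ _)))

theorem psi_jet (l : ℝ) (i : Fin P.N) (z : Cm n) (v : Cm n → ℝ) :
    P.psi l i z (LIN.jet v z) = P.rh i z * (l * v z - P.Lo i v z) -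
      P.Wf i z (v z, fderiv ℝ v z) := rfl

/-- the equation of a glued function in terms of jets -/
theorem eq_psi {V : Fin P.N → Γ → Cm n → ℝ} (hV : ∀ i γ, ContDiff ℝ 2 (V i γ)) (l : ℝ) (δ : Γ)
    (hz : z ∈ (P.e j).target) :
    l * P.loc j δ (P.glue V) z - P.Lo j (P.loc j δ (P.glue V)) z =
      ∑ i ∈ P.A0 (P.pt j δ z), P.psi l i (P.tau j δ i (P.gam i (P.pt j δ z)) z)
        (LIN.jet (V i (P.gam i (P.pt j δ z))) (P.tau j δ i (P.gam i (P.pt j δ z)) z)) := by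
  have h1 : P.loc j δ (P.glue V) z = _ := (glueT_loc (adm_rh V) δ hz).self_of_nhds
  rw [Lo_glue hV δ hz, h1, Finset.mul_sum, ← Finset.sum_sub_distrib]
  refine Finset.sum_congr rfl fun i _ => ?_
  rw [psi_jet]
  ring

/-- the equation when the local functions solve the equation with right hand side `f` -/
theorem eq_err {V : Fin P.N → Γ → Cm n → ℝ} {l : ℝ} {f : M → ℝ}
    (heq : ∀ i γ, ∀ y ∈ closedBall (P.c i) (2 * P.r i),
      l * V i γ y - P.Lo i (V i γ) y = P.loc i γ f y) (j : Fin P.N) (δ : Γ) (z : Cm n) :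
    ∑ i ∈ P.A0 (P.pt j δ z), P.psi l i (P.tau j δ i (P.gam i (P.pt j δ z)) z)
        (LIN.jet (V i (P.gam i (P.pt j δ z))) (P.tau j δ i (P.gam i (P.pt j δ z)) z)) =
      f (P.pt j δ z) - P.err V (P.pt j δ z) := by
  have h1 : P.err V (P.pt j δ z) = _ := glueT_apply (adm_Wf _) (P.pt j δ z)
  rw [h1]
  have h2 : f (P.pt j δ z) = ∑ i ∈ P.A0 (P.pt j δ z), P.ρ i (P.pt j δ z) * f (P.pt j δ z) := by
    rw [← Finset.sum_mul, A0_sum, one_mul]
  rw [h2, ← Finset.sum_sub_distrib]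
  refine Finset.sum_congr rfl fun i hi => ?_
  have h3 : P.tau j δ i (P.gam i (P.pt j δ z)) z = P.co i (P.gam i (P.pt j δ z)) (P.pt j δ z) := rfl
  rw [psi_jet, h3, heq i _ _ (ball_subset_closedBall (A0_mem hi).2), rh_co (A0_mem hi).1,
    loc_co f (A0_mem hi).1]

theorem Wf_bound (P : PS n M Γ) : ∃ K : ℝ, 0 ≤ K ∧ ∀ i, ∀ z ∈ closedBall (P.c i) (4 * P.r i),
    ‖P.Wf i z‖ ≤ K ∧ ‖fderiv ℝ (P.Wf i) z‖ ≤ K ∧ |P.rh i z| ≤ K := by
  have h : ∀ i, ∃ K : ℝ, 0 ≤ K ∧ ∀ z ∈ closedBall (P.c i) (4 * P.r i),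
      ‖P.Wf i z‖ ≤ K ∧ ‖fderiv ℝ (P.Wf i) z‖ ≤ K ∧ |P.rh i z| ≤ K := by
    intro i
    have hc : IsCompact (closedBall (P.c i) (4 * P.r i)) := isCompact_closedBall _ _
    obtain ⟨K1, h1⟩ := hc.exists_bound_of_continuousOn (f := P.Wf i) fun z hz =>
      (Wf_smooth (P.ball_sub i hz)).continuousAt.continuousWithinAt
    obtain ⟨K2, h2⟩ := hc.exists_bound_of_continuousOn (f := fderiv ℝ (P.Wf i)) fun z hz =>
      ((Wf_smooth (P.ball_sub i hz)).fderiv_right (m := 0)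
        (by norm_num)).continuousAt.continuousWithinAt
    obtain ⟨K3, h3⟩ := hc.exists_bound_of_continuousOn (f := P.rh i) fun z hz =>
      (rh_smooth (P.ball_sub i hz)).continuousAt.continuousWithinAt
    refine ⟨|K1| + |K2| + |K3|, by positivity, fun z hz => ⟨?_, ?_, ?_⟩⟩
    · linarith [h1 z hz, le_abs_self K1, abs_nonneg K2, abs_nonneg K3]
    · linarith [h2 z hz, le_abs_self K2, abs_nonneg K1, abs_nonneg K3]
    · have := h3 z hz
      rw [Real.norm_eq_abs] at this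
      linarith [le_abs_self K3, abs_nonneg K1, abs_nonneg K2]
  choose K hK hb using h
  refine ⟨∑ i, K i, Finset.sum_nonneg fun i _ => hK i, fun i z hz => ?_⟩
  have hle : K i ≤ ∑ i, K i := Finset.single_le_sum (f := K) (fun i _ => hK i) (Finset.mem_univ i)
  obtain ⟨h1, h2, h3⟩ := hb i z hz
  exact ⟨h1.trans hle, h2.trans hle, h3.trans hle⟩

theorem card_A0 (m : M) : ((P.A0 m).card : ℝ) ≤ P.N := by
  have := Finset.card_le_univ (P.A0 m)
  rw [Fintype.card_fin] at this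
  exact_mod_cast this

theorem two_lt_four (i : Fin P.N) : ball (P.c i) (2 * P.r i) ⊆ closedBall (P.c i) (4 * P.r i) :=
  ball_subset_closedBall.trans (closedBall_subset_closedBall (by linarith [P.r_pos i]))

/-- bounds for the error term -/
theorem err_bound (P : PS n M Γ) : ∃ K : ℝ, 0 ≤ K ∧ ∀ V : Fin P.N → Γ → Cm n → ℝ,
    (∀ i γ, ContDiff ℝ 2 (V i γ)) → ∀ a₀ a₁ a₂ : ℝ, 0 ≤ a₀ → 0 ≤ a₁ → 0 ≤ a₂ →
    (∀ i γ z, |V i γ z| ≤ a₀) →
    (∀ i γ z, ‖fderiv ℝ (V i γ) z‖ ≤ a₁) → (∀ i γ z, ‖fderiv ℝ (fderiv ℝ (V i γ)) z‖ ≤ a₂) →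
    (∀ i γ, ∀ z ∈ (P.e i).target, ContDiffAt ℝ 1 (P.loc i γ (P.err V)) z) ∧
    (∀ m, |P.err V m| ≤ K * (a₀ + a₁)) ∧
    ∀ i γ, ∀ z ∈ closedBall (P.c i) (4 * P.r i),
      ‖fderiv ℝ (P.loc i γ (P.err V)) z‖ ≤ K * (a₀ + a₁ + a₂) := by
  obtain ⟨K, hK, hKb⟩ := P.Wf_bound
  obtain ⟨L, hL, hLb⟩ := P.tau_bound
  refine ⟨P.N * K + P.N * (2 * K * L), by positivity, fun V hV a₀ a₁ a₂ h0 h1 h2 hb0 hb1 hb2 => ?_⟩
  have hu : ∀ i γ y, HasFDerivAt (fun y => (V i γ y, fderiv ℝ (V i γ) y))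
      ((fderiv ℝ (V i γ) y).prod (fderiv ℝ (fderiv ℝ (V i γ)) y)) y := fun i γ y =>
    (((hV i γ).differentiable (by norm_num)) y).hasFDerivAt.prodMk
      (hasFDerivAt_fderiv (hV i γ).contDiffAt)
  have hun : ∀ i γ y, ‖(V i γ y, fderiv ℝ (V i γ) y)‖ ≤ a₀ + a₁ := fun i γ y => by
    rw [Prod.norm_def]
    refine max_le ?_ ?_
    · have := hb0 i γ y
      rw [← Real.norm_eq_abs] at this
      simp only; linarith
    · have := hb1 i γ y
      simp only; linarith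
  have hun' : ∀ i γ y, ‖(fderiv ℝ (V i γ) y).prod (fderiv ℝ (fderiv ℝ (V i γ)) y)‖ ≤ a₁ + a₂ :=
    fun i γ y => by
      refine ContinuousLinearMap.opNorm_le_bound _ (by positivity) fun ξ => ?_
      rw [ContinuousLinearMap.prod_apply, Prod.norm_def]
      refine max_le ?_ ?_
      · refine ((fderiv ℝ (V i γ) y).le_opNorm ξ).trans ?_
        exact mul_le_mul_of_nonneg_right (by linarith [hb1 i γ y]) (norm_nonneg _)
      · refine ((fderiv ℝ (fderiv ℝ (V i γ)) y).le_opNorm ξ).trans ?_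
        exact mul_le_mul_of_nonneg_right (by linarith [hb2 i γ y]) (norm_nonneg _)
  have hT : ∀ i γ, ∀ y ∈ (P.e i).target, HasFDerivAt
      (fun y => P.Wf i y (V i γ y, fderiv ℝ (V i γ) y))
      ((P.Wf i y).comp ((fderiv ℝ (V i γ) y).prod (fderiv ℝ (fderiv ℝ (V i γ)) y)) +
        (fderiv ℝ (P.Wf i) y).flip (V i γ y, fderiv ℝ (V i γ) y)) y := fun i γ y hy =>
    ((Wf_smooth hy).differentiableAt (by simp)).hasFDerivAt.clm_apply (hu i γ y)
  have hT1 : ∀ i γ, ∀ y ∈ (P.e i).target, ContDiffAt ℝ 1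
      (fun y => P.Wf i y (V i γ y, fderiv ℝ (V i γ) y)) y := fun i γ y hy =>
    ((Wf_smooth hy).of_le (by norm_cast)).clm_apply
      (((hV i γ).of_le (by norm_num)).contDiffAt.prodMk
        ((hV i γ).fderiv_right (m := 1) (by norm_num)).contDiffAt)
  have hTn : ∀ i γ, ∀ y ∈ closedBall (P.c i) (4 * P.r i),
      ‖(P.Wf i y).comp ((fderiv ℝ (V i γ) y).prod (fderiv ℝ (fderiv ℝ (V i γ)) y)) +
        (fderiv ℝ (P.Wf i) y).flip (V i γ y, fderiv ℝ (V i γ) y)‖ ≤ 2 * K * (a₀ + a₁ + a₂) := by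
    intro i γ y hy
    obtain ⟨k1, k2, -⟩ := hKb i y hy
    have e1 : ‖(P.Wf i y).comp ((fderiv ℝ (V i γ) y).prod (fderiv ℝ (fderiv ℝ (V i γ)) y))‖ ≤
        K * (a₁ + a₂) := (ContinuousLinearMap.opNorm_comp_le _ _).trans
      (mul_le_mul k1 (hun' i γ y) (norm_nonneg _) hK)
    have e2 : ‖(fderiv ℝ (P.Wf i) y).flip (V i γ y, fderiv ℝ (V i γ) y)‖ ≤ K * (a₀ + a₁) := by
      refine (ContinuousLinearMap.le_opNorm _ _).trans ?_
      rw [ContinuousLinearMap.opNorm_flip]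
      exact mul_le_mul k2 (hun i γ y) (norm_nonneg _) hK
    refine (norm_add_le _ _).trans ?_
    nlinarith [mul_nonneg hK h0, mul_nonneg hK h1, mul_nonneg hK h2]
  refine ⟨?_, ?_, ?_⟩
  · intro j δ z hz
    refine ContDiffAt.congr_of_eventuallyEq ?_ (glueT_loc (adm_Wf _) δ hz)
    refine ContDiffAt.sum fun i hi => ?_
    have hact := (A0_mem hi).1
    have h4 : ContDiffAt ℝ 1 (P.tau j δ i (P.gam i (P.pt j δ z))) z :=
      ((tau_hol hz hact).restrict_scalars ℝ).of_le (by exact le_top)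
    exact (hT1 i _ _ (tau_mem hact)).comp z h4
  · intro m
    have e1 : P.err V m = _ := glueT_apply (adm_Wf _) m
    rw [e1]
    refine (Finset.abs_sum_le_sum_abs _ _).trans ?_
    have e2 : ∀ i ∈ P.A0 m, |P.Wf i (P.co i (P.gam i m) m) (V i (P.gam i m) (P.co i (P.gam i m) m),
        fderiv ℝ (V i (P.gam i m)) (P.co i (P.gam i m) m))| ≤ K * (a₀ + a₁) := by
      intro i hi
      rw [← Real.norm_eq_abs]
      refine ((P.Wf i _).le_opNorm _).trans ?_
      exact mul_le_mul (hKb i _ (two_lt_four i (A0_mem hi).2)).1 (hun i _ _) (norm_nonneg _) hK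
    refine (Finset.sum_le_sum e2).trans ?_
    rw [Finset.sum_const, nsmul_eq_mul]
    have e3 : ((P.A0 m).card : ℝ) * (K * (a₀ + a₁)) ≤ P.N * (K * (a₀ + a₁)) :=
      mul_le_mul_of_nonneg_right (card_A0 m) (by positivity)
    have e4 : 0 ≤ P.N * (2 * K * L) * (a₀ + a₁) := by positivity
    linarith
  · intro j δ z hz
    have hzt := P.ball_sub j hz
    unfold err
    rw [(glueT_loc (adm_Wf fun i γ z => (V i γ z, fderiv ℝ (V i γ) z)) δ hzt).fderiv_eq]
    have e1 : ∀ i ∈ P.A0 (P.pt j δ z), HasFDerivAt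
        (fun y => P.Wf i (P.tau j δ i (P.gam i (P.pt j δ z)) y)
          (V i (P.gam i (P.pt j δ z)) (P.tau j δ i (P.gam i (P.pt j δ z)) y),
          fderiv ℝ (V i (P.gam i (P.pt j δ z))) (P.tau j δ i (P.gam i (P.pt j δ z)) y))) _ z :=
      fun i hi => (hT i _ _ (tau_mem (A0_mem hi).1)).comp z
        (((tau_hol hzt (A0_mem hi).1).differentiableAt (by simp)).restrictScalars ℝ).hasFDerivAt
    rw [(HasFDerivAt.fun_sum e1).fderiv]
    refine (norm_sum_le _ _).trans ?_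
    have e2 : ∀ i ∈ P.A0 (P.pt j δ z), ‖(((P.Wf i (P.tau j δ i (P.gam i (P.pt j δ z)) z)).comp
        ((fderiv ℝ (V i (P.gam i (P.pt j δ z))) (P.tau j δ i (P.gam i (P.pt j δ z)) z)).prod
          (fderiv ℝ (fderiv ℝ (V i (P.gam i (P.pt j δ z))))
            (P.tau j δ i (P.gam i (P.pt j δ z)) z))) +
        (fderiv ℝ (P.Wf i) (P.tau j δ i (P.gam i (P.pt j δ z)) z)).flip
          (V i (P.gam i (P.pt j δ z)) (P.tau j δ i (P.gam i (P.pt j δ z)) z),
          fderiv ℝ (V i (P.gam i (P.pt j δ z))) (P.tau j δ i (P.gam i (P.pt j δ z)) z))).comp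
        (fderiv ℝ (P.tau j δ i (P.gam i (P.pt j δ z))) z))‖ ≤
          2 * K * (a₀ + a₁ + a₂) * L := by
      intro i hi
      have hb := two_lt_four i (A0_mem hi).2
      refine (ContinuousLinearMap.opNorm_comp_le _ _).trans ?_
      exact mul_le_mul (hTn i _ _ hb) (hLb j δ i _ z hz (A0_mem hi).1 hb) (norm_nonneg _)
        (by positivity)
    refine (Finset.sum_le_sum e2).trans ?_
    rw [Finset.sum_const, nsmul_eq_mul]
    have e3 : ((P.A0 (P.pt j δ z)).card : ℝ) * (2 * K * (a₀ + a₁ + a₂) * L) ≤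
        P.N * (2 * K * (a₀ + a₁ + a₂) * L) :=
      mul_le_mul_of_nonneg_right (card_A0 _) (by positivity)
    have e4 : 0 ≤ P.N * K * (a₀ + a₁ + a₂) := by positivity
    linarith

end PS

end Vale.Agent.P299.H760
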