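import Vale.Agent.P299.H760.Calc
import Vale.Agent.P272.K.R.Final

/-! # Smoothness of `C^{2,α}` solutions of linear equations (helper760) -/

open scoped ContDiff Topology
open Filter Metric Set
open Vale.Agent.P272.K

set_option maxSynthPendingDepth 3

noncomputable section

namespace Vale.Agent.P299.H760

open R

variable {E : Type} [NormedAddCommGroup E] [NormedSpace ℝ E]

/-- composition on the right with a smooth map -/
theorem HC_comp_right {α : ℝ} (hα : 0 < α) (hα1 : α ≤ 1) {U V : Set E} (hU : IsOpen U)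
    (hV : IsOpen V) {τ : E → E} (hτ : ∀ x ∈ U, ContDiffAt ℝ ∞ τ x) (hm : ∀ x ∈ U, τ x ∈ V) {k : ℕ} :
    ∀ {F : Type} [NormedAddCommGroup F] [NormedSpace ℝ F] {f : E → F}, HC α V k f →
      HC α U k (fun x => f (τ x)) := by
  induction k with
  | zero =>
    intro F _ _ f hf x hx
    obtain ⟨r, hr, hrV, C, hC, hH⟩ := hf (τ x) (hm x hx)
    obtain ⟨K, t, ht, hK⟩ := ((hτ x hx).of_le (by norm_num : (1 : WithTop ℕ∞) ≤ ∞)).exists_lipschitzOnWith
    have h1 : τ ⁻¹' ball (τ x) r ∈ 𝓝 x := (hτ x hx).continuousAt.preimage_mem_nhds (ball_mem_nhds _ hr)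
    obtain ⟨ρ, hρ, hb⟩ := Metric.mem_nhds_iff.1 (Filter.inter_mem (Filter.inter_mem ht h1)
      (hU.mem_nhds hx))
    refine ⟨ρ, hρ, fun y hy => (hb hy).2, C * (K : ℝ) ^ α, by positivity, fun y hy z hz => ?_⟩
    refine (hH _ (hb hy).1.2 _ (hb hz).1.2).trans ?_
    have h2 : ‖τ y - τ z‖ ≤ K * ‖y - z‖ := by
      have := hK.dist_le_mul y (hb hy).1.1 z (hb hz).1.1
      rwa [dist_eq_norm, dist_eq_norm] at this
    have h3 : ((K : ℝ) * ‖y - z‖) ^ α = (K : ℝ) ^ α * ‖y - z‖ ^ α :=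
      Real.mul_rpow K.2 (norm_nonneg _)
    rw [mul_assoc, ← h3]
    exact mul_le_mul_of_nonneg_left (Real.rpow_le_rpow (norm_nonneg _) h2 hα.le) hC
  | succ k ih =>
    intro F _ _ f hf
    have hd : ∀ x ∈ U, HasFDerivAt (fun x => f (τ x)) ((fderiv ℝ f (τ x)).comp (fderiv ℝ τ x)) x :=
      fun x hx => (hf.1 _ (hm x hx)).hasFDerivAt.comp x
        ((hτ x hx).differentiableAt (by simp)).hasFDerivAt
    refine ⟨fun x hx => (hd x hx).differentiableAt, ?_⟩
    have h1 := ih hf.2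
    have h2 : HC α U k (fderiv ℝ τ) := HC.of_contDiff hα hα1 hU fun x hx =>
      (hτ x hx).fderiv_right (m := ((k + 1 : ℕ) : WithTop ℕ∞)) (by exact_mod_cast le_top)
    have h3 := HC.bilin hα hα1 hU (ContinuousLinearMap.compL ℝ E E F) h1 h2
    exact h3.congr hU fun x hx => (hd x hx).fderiv.symm

/-- product with a scalar function -/
theorem HC_mul {α : ℝ} (hα : 0 < α) (hα1 : α ≤ 1) {U : Set E} (hU : IsOpen U) {k : ℕ} {f g : E → ℝ}
    (hf : HC α U k f) (hg : HC α U k g) : HC α U k (fun x => f x * g x) :=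
  HC.bilin hα hα1 hU (ContinuousLinearMap.mul ℝ ℝ) hf hg

/-- a function satisfying the resolvent bounds is of class `C^{2,α}` -/
theorem HC_of_resBd {α l C N : ℝ} {v : E → ℝ} (hv : ContDiff ℝ 2 v)
    (h : LIN.ResBd α l C N v) : HC α univ 2 v := by
  refine ⟨fun x _ => hv.differentiable (by norm_num) x, fun x _ =>
    (hv.fderiv_right (m := 1) (by norm_num)).differentiable (by norm_num) x, fun x _ => ?_⟩
  refine ⟨1, one_pos, subset_univ _, |C * N|, abs_nonneg _, fun y _ z _ => ?_⟩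
  exact (h.two.hol y z).trans (mul_le_mul_of_nonneg_right (le_abs_self _)
    (Real.rpow_nonneg (norm_nonneg _) _))

variable [FiniteDimensional ℝ E]

/-- **regularity**: `C^{2,α}` solutions of `l w - L w = f` are smooth -/
theorem smooth_of_eq {α : ℝ} (hα : 0 < α) (hα1 : α < 1) {a : E → B2 E →L[ℝ] ℝ} {U : Set E}
    (h : EllOn a U) {w f : E → ℝ} (hf : ∀ x ∈ U, ContDiffAt ℝ ∞ f x) (hw : HC α U 2 w) {l : ℝ}
    (heq : ∀ x ∈ U, l * w x - Lop a w x = f x) : ∀ x ∈ U, ContDiffAt ℝ ∞ w x := by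
  have hk : ∀ k : ℕ, HC α U (k + 2) w := by
    intro k
    refine linear_reg hα hα1.le (allCCE E hα hα1) h.isOpen k (A := a) (c := fun _ => -l) (g := f)
      ?_ (hc_const _ h.isOpen) ?_ (fun x hx ξ hξ => h.pos x hx ξ hξ) hw fun x hx => ?_
    · exact HC.of_contDiff hα hα1.le h.isOpen fun x hx =>
        (h.smooth x hx).of_le (by exact_mod_cast le_top)
    · exact HC.of_contDiff hα hα1.le h.isOpen fun x hx =>
        (hf x hx).of_le (by exact_mod_cast le_top)
    · have := heq x hx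
      show Lop a w x + -l * w x + f x = 0
      linarith
  intro x hx
  have : ContDiffOn ℝ ∞ w U := by
    rw [contDiffOn_infty]
    intro m
    exact ((hk m).contDiffOn hα h.isOpen).of_le (by exact_mod_cast Nat.le_add_right m 2)
  exact this.contDiffAt (h.isOpen.mem_nhds hx)

end Vale.Agent.P299.H760
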