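import Vale.Agent.P299.H760.Bounds
import Vale.Agent.P299.H760.Reg

/-! # Patch systems: glueing of functions given in the patches (helper760) -/

open scoped Manifold ContDiff ComplexOrder Topology
open Vale.Agent.P272.K Filter Metric Set

set_option maxSynthPendingDepth 3

noncomputable section

namespace Vale.Agent.P299.H760

variable {n : ℕ}

namespace PS

variable {M Γ : Type} [TopologicalSpace M] [Group Γ] (P : PS n M Γ)

open Classical in
/-- the index of the patch of type `i` containing `m` -/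
def gam (i : Fin P.N) (m : M) : Γ := if h : ∃ γ, P.act i γ m then h.choose else 1

/-- `ρ i` in the patches of type `i` -/
def rh (i : Fin P.N) (z : Cm n) : ℝ := P.ρ i ((P.e i).symm z)

open Classical in
/-- glueing -/
def glueT (T : Fin P.N → Γ → Cm n → ℝ) (m : M) : ℝ :=
  ∑ i, if P.act i (P.gam i m) m then T i (P.gam i m) (P.co i (P.gam i m) m) else 0

/-- families which can be glued -/
def Adm (T : Fin P.N → Γ → Cm n → ℝ) : Prop := ∀ i γ, ∀ z ∈ (P.e i).target,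
  (P.rh i =ᶠ[𝓝 z] fun _ => 0) → T i γ z = 0

open Classical in
/-- the types of patches around `m` -/
def A0 (m : M) : Finset (Fin P.N) :=
  Finset.univ.filter fun i => ∃ γ, P.act i γ m ∧ P.co i γ m ∈ ball (P.c i) (2 * P.r i)

/-- the commutator of `rh i` and the Laplacian -/
def Wf (i : Fin P.N) (z : Cm n) : ℝ × (Cm n →L[ℝ] ℝ) →L[ℝ] ℝ :=
  (P.Lo i (P.rh i) z) • ContinuousLinearMap.fst ℝ ℝ _ +
    ((opG (P.g i z)).comp (syB (fderiv ℝ (P.rh i) z))).comp (ContinuousLinearMap.snd ℝ ℝ _)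

variable {P} {i j : Fin P.N} {γ δ : Γ} {m : M} {z : Cm n}

theorem gam_eq (h : P.act i γ m) : P.gam i m = γ := by
  have h' : ∃ γ, P.act i γ m := ⟨γ, h⟩
  unfold gam
  rw [dif_pos h']
  exact act_unique h'.choose_spec h

theorem rh_smooth (hz : z ∈ (P.e i).target) : ContDiffAt ℝ ∞ (P.rh i) z := P.ρ_smooth i i z hz

theorem rh_eq (i : Fin P.N) (γ : Γ) (z : Cm n) : P.rh i z = P.ρ i (P.pt i γ z) := by
  unfold rh pt; rw [P.ρ_inv]

theorem rh_co (h : P.act i γ m) : P.rh i (P.co i γ m) = P.ρ i m := by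
  rw [rh_eq i γ, pt_co h]

theorem rh_zero (hz : z ∈ (P.e i).target) (h : z ∉ ball (P.c i) (2 * P.r i)) :
    P.rh i =ᶠ[𝓝 z] fun _ => 0 := by
  rcases P.ρ_supp i ((P.e i).symm z) with ⟨γ, h1, h2⟩ | h1
  · have h3 : γ = 1 := P.sep i γ _ ((P.e i).map_target hz) h1
    subst h3
    rw [P.ac_one, (P.e i).right_inv hz] at h2
    exact absurd h2 h
  · exact ((P.e i).continuousAt_symm hz).eventually h1

theorem A0_mem (h : i ∈ P.A0 m) : P.act i (P.gam i m) m ∧
    P.co i (P.gam i m) m ∈ ball (P.c i) (2 * P.r i) := by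
  classical
  obtain ⟨γ, h1, h2⟩ := (Finset.mem_filter.1 h).2
  rw [gam_eq h1]
  exact ⟨h1, h2⟩

theorem A0_not (h : i ∉ P.A0 m) : ∀ᶠ m' in 𝓝 m, P.ρ i m' = 0 := by
  classical
  rcases P.ρ_supp i m with ⟨γ, h1, h2⟩ | h1
  · exact absurd (Finset.mem_filter.2 ⟨Finset.mem_univ _, γ, h1, h2⟩) h
  · exact h1

theorem A0_sum (m : M) : ∑ i ∈ P.A0 m, P.ρ i m = 1 := by
  rw [← P.ρ_sum m]
  refine Finset.sum_subset (Finset.subset_univ _) fun i _ hi => (A0_not hi).self_of_nhds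

theorem rh_zero_of_ρ (h : P.act i γ m) (hρ : ∀ᶠ m' in 𝓝 m, P.ρ i m' = 0) :
    P.rh i =ᶠ[𝓝 (P.co i γ m)] fun _ => 0 := by
  have h1 : ContinuousAt (P.pt i γ) (P.co i γ m) := continuousAt_pt (co_mem h)
  have h2 : ∀ᶠ y in 𝓝 (P.co i γ m), P.ρ i (P.pt i γ y) = 0 :=
    h1.eventually (by rw [pt_co h]; exact hρ)
  filter_upwards [h2] with y hy
  rw [rh_eq i γ, hy]

theorem glueT_eventually {T : Fin P.N → Γ → Cm n → ℝ} (hT : P.Adm T) (m : M) :
    ∀ᶠ m' in 𝓝 m, P.glueT T m' = ∑ i ∈ P.A0 m, T i (P.gam i m) (P.co i (P.gam i m) m') := by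
  classical
  have key : ∀ i, ∀ᶠ m' in 𝓝 m, (if P.act i (P.gam i m') m' then
      T i (P.gam i m') (P.co i (P.gam i m') m') else 0) =
      if i ∈ P.A0 m then T i (P.gam i m) (P.co i (P.gam i m) m') else 0 := by
    intro i
    by_cases hi : i ∈ P.A0 m
    · filter_upwards [act_eventually (A0_mem hi).1] with m' hm'
      rw [gam_eq hm', if_pos hm', if_pos hi]
    · filter_upwards [eventually_eventually_nhds.2 (A0_not hi)] with m' hm'
      rw [if_neg hi]
      split_ifs with hact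
      · exact hT i _ _ (co_mem hact) (rh_zero_of_ρ hact hm')
      · rfl
  filter_upwards [Filter.eventually_all.2 key] with m' hm'
  unfold glueT
  rw [Finset.sum_congr rfl fun i _ => hm' i, ← Finset.sum_filter]
  congr 1
  ext i; simp

theorem glueT_loc {T : Fin P.N → Γ → Cm n → ℝ} (hT : P.Adm T) (δ : Γ) (hz : z ∈ (P.e j).target) :
    P.loc j δ (P.glueT T) =ᶠ[𝓝 z] fun y => ∑ i ∈ P.A0 (P.pt j δ z),
      T i (P.gam i (P.pt j δ z)) (P.tau j δ i (P.gam i (P.pt j δ z)) y) :=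
  (continuousAt_pt hz).eventually (glueT_eventually hT (P.pt j δ z))

theorem glueT_apply {T : Fin P.N → Γ → Cm n → ℝ} (hT : P.Adm T) (m : M) :
    P.glueT T m = ∑ i ∈ P.A0 m, T i (P.gam i m) (P.co i (P.gam i m) m) :=
  (glueT_eventually hT m).self_of_nhds

theorem Wf_apply (i : Fin P.N) (z : Cm n) (v : ℝ) (p : Cm n →L[ℝ] ℝ) :
    P.Wf i z (v, p) = P.Lo i (P.rh i) z * v + opG (P.g i z) (sy (fderiv ℝ (P.rh i) z) p) := rfl

theorem Wf_smooth (hz : z ∈ (P.e i).target) : ContDiffAt ℝ ∞ (P.Wf i) z := by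
  have h0 : ContDiffAt ℝ ∞ (P.rh i) z := rh_smooth hz
  have h1 : ContDiffAt ℝ ∞ (fderiv ℝ (P.rh i)) z := h0.fderiv_right (m := ∞) (by simp)
  have h2 : ContDiffAt ℝ ∞ (fderiv ℝ (fderiv ℝ (P.rh i))) z := h1.fderiv_right (m := ∞) (by simp)
  have h3 : ContDiffAt ℝ ∞ (fun y => opG (P.g i y)) z := (ellOn P i).smooth z hz
  have h4 : ContDiffAt ℝ ∞ (P.Lo i (P.rh i)) z := h3.clm_apply h2
  have h5 : ContDiffAt ℝ ∞ (fun y => syB (fderiv ℝ (P.rh i) y)) z :=
    (ContinuousLinearMap.contDiff (syB (E := Cm n))).contDiffAt.comp z h1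
  exact (h4.smul contDiffAt_const).add ((h3.clm_comp h5).clm_comp contDiffAt_const)

theorem Wf_zero (h : P.rh i =ᶠ[𝓝 z] fun _ => 0) : P.Wf i z = 0 := by
  have h1 : fderiv ℝ (P.rh i) z = 0 := by
    rw [h.fderiv_eq]; exact fderiv_const_apply 0
  have h2 : P.Lo i (P.rh i) z = 0 := by
    have := Lop_congr (a := fun y => opG (P.g i y)) h
    exact this.trans (Lop_const 0 z)
  ext p
  · simp [Wf, h1, h2]
  · simp [Wf, h1, h2]

theorem adm_rh (V : Fin P.N → Γ → Cm n → ℝ) : P.Adm fun i γ z => P.rh i z * V i γ z := by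
  intro i γ z _ h
  show P.rh i z * _ = 0
  rw [h.self_of_nhds, zero_mul]

theorem adm_Wf (V : Fin P.N → Γ → Cm n → ℝ × (Cm n →L[ℝ] ℝ)) :
    P.Adm fun i γ z => P.Wf i z (V i γ z) := by
  intro i γ z _ h
  show P.Wf i z _ = 0
  rw [Wf_zero h]; rfl

/-- glueing with the partition of unity -/
def glue (P : PS n M Γ) (V : Fin P.N → Γ → Cm n → ℝ) : M → ℝ :=
  P.glueT fun i γ z => P.rh i z * V i γ z

/-- the error -/
def err (P : PS n M Γ) (V : Fin P.N → Γ → Cm n → ℝ) : M → ℝ :=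
  P.glueT fun i γ z => P.Wf i z (V i γ z, fderiv ℝ (V i γ) z)

/-- the Laplacian of a glued function -/
theorem Lo_glue {V : Fin P.N → Γ → Cm n → ℝ} (hV : ∀ i γ, ContDiff ℝ 2 (V i γ)) (δ : Γ)
    (hz : z ∈ (P.e j).target) : P.Lo j (P.loc j δ (P.glue V)) z = ∑ i ∈ P.A0 (P.pt j δ z),
      (P.rh i (P.tau j δ i (P.gam i (P.pt j δ z)) z) *
        P.Lo i (V i (P.gam i (P.pt j δ z))) (P.tau j δ i (P.gam i (P.pt j δ z)) z) +
      P.Wf i (P.tau j δ i (P.gam i (P.pt j δ z)) z)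
        (V i (P.gam i (P.pt j δ z)) (P.tau j δ i (P.gam i (P.pt j δ z)) z),
        fderiv ℝ (V i (P.gam i (P.pt j δ z))) (P.tau j δ i (P.gam i (P.pt j δ z)) z))) := by
  have h1 : P.Lo j (P.loc j δ (P.glue V)) z = _ := Lop_congr (glueT_loc (adm_rh V) δ hz)
  have hprod : ∀ i ∈ P.A0 (P.pt j δ z), ContDiffAt ℝ 2
      (fun y => P.rh i y * V i (P.gam i (P.pt j δ z)) y)
      (P.tau j δ i (P.gam i (P.pt j δ z)) z) := fun i hi =>
    ((rh_smooth (tau_mem (A0_mem hi).1)).of_le (by norm_cast)).mul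
      (hV i _).contDiffAt
  rw [h1, Lop_sum]
  · refine Finset.sum_congr rfl fun i hi => ?_
    have h2 := Lo_tau hz (A0_mem hi).1 (hprod i hi)
    refine h2.trans ?_
    have h3 : P.Lo i (fun y => P.rh i y * V i (P.gam i (P.pt j δ z)) y)
        (P.tau j δ i (P.gam i (P.pt j δ z)) z) = _ :=
      Lop_mul ((rh_smooth (tau_mem (A0_mem hi).1)).of_le (by norm_cast))
        (hV i _).contDiffAt
    rw [h3, Wf_apply]
    unfold Lo
    ring
  · intro i hi
    have h4 : ContDiffAt ℝ 2 (P.tau j δ i (P.gam i (P.pt j δ z))) z :=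
      ((tau_hol hz (A0_mem hi).1).restrict_scalars ℝ).of_le (by exact le_top)
    exact (hprod i hi).comp z h4

end PS

end Vale.Agent.P299.H760
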