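import Vale.Agent.P299.H760.Iface
import Vale.Agent.P272.K.Inv.Consts
import Vale.Agent.P272.K.N.Det

/-! # Patch systems: transitions and localisation (helper760) -/

open scoped Manifold ContDiff ComplexOrder Topology
open Vale.Agent.P272.K Filter Metric Set

set_option maxSynthPendingDepth 3

noncomputable section

namespace Vale.Agent.P299.H760

variable {n : ℕ}

/-- invariance of the Laplacian under holomorphic isometries, in charts -/
theorem Lop_comp {g g' : Cm n → Matrix (Fin n) (Fin n) ℂ} {τ : Cm n → Cm n} {z : Cm n} {f : Cm n → ℝ}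
    (hτ : ContDiffAt ℂ ω τ z) (hf : ContDiffAt ℝ 2 f (τ z)) (hg : (g z).PosDef)
    (h : g z = (jmat τ z).transpose * g' (τ z) * (jmat τ z).map (starRingEnd ℂ)) :
    Lop (fun y => opG (g y)) (fun y => f (τ y)) z = Lop (fun y => opG (g' y)) f (τ z) := by
  have hJ : IsUnit (jmat τ z).det := by
    have h1 : IsUnit (g z).det := by
      exact isUnit_iff_ne_zero.2 hg.det_pos.ne'
    rw [h, Matrix.det_mul, Matrix.det_mul, Matrix.det_transpose] at h1
    rw [isUnit_iff_ne_zero] at h1 ⊢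
    intro h0
    rw [h0] at h1
    simp at h1
  have hcomp : ContDiffAt ℝ 2 (fun y => f (τ y)) z := by
    have h2 : ContDiffAt ℝ 2 τ z := (hτ.restrict_scalars ℝ).of_le (by exact le_top)
    exact hf.comp z h2
  have e1 : N.lev (fderiv ℝ (fderiv ℝ (fun y => f (τ y))) z) = cHess (fun y => f (τ y)) z :=
    (N.cHess_eq_lev ((hcomp.fderiv_right (m := 1) (by norm_num)).differentiableAt
      (by norm_num))).symm
  have e2 : N.lev (fderiv ℝ (fderiv ℝ f) (τ z)) = cHess f (τ z) :=
    (N.cHess_eq_lev ((hf.fderiv_right (m := 1) (by norm_num)).differentiableAt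
      (by norm_num))).symm
  show opG (g z) _ = opG (g' (τ z)) _
  rw [opG_apply, opG_apply, e1, e2, cHess_comp hf hτ, h, trace_form hJ]

/-- real part of an entry of the Levi matrix -/
def levRe (p q : Fin n) : B2 (Cm n) →L[ℝ] ℝ :=
  LinearMap.toContinuousLinearMap
    { toFun := fun B => (N.lev B p q).re
      map_add' := fun B C => by rw [N.lev_add, Matrix.add_apply, Complex.add_re]
      map_smul' := fun c B => by
        rw [N.lev_smul, Matrix.smul_apply, smul_eq_mul, Complex.re_ofReal_mul,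
          RingHom.id_apply, smul_eq_mul] }

/-- imaginary part of an entry of the Levi matrix -/
def levIm (p q : Fin n) : B2 (Cm n) →L[ℝ] ℝ :=
  LinearMap.toContinuousLinearMap
    { toFun := fun B => (N.lev B p q).im
      map_add' := fun B C => by rw [N.lev_add, Matrix.add_apply, Complex.add_im]
      map_smul' := fun c B => by
        rw [N.lev_smul, Matrix.smul_apply, smul_eq_mul, Complex.im_ofReal_mul,
          RingHom.id_apply, smul_eq_mul] }

theorem opG_eq (G : Matrix (Fin n) (Fin n) ℂ) : opG G =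
    ∑ p, ∑ q, ((G⁻¹ p q).re • levRe q p - (G⁻¹ p q).im • levIm q p) := by
  ext B
  rw [opG_apply]
  simp only [Matrix.trace, Matrix.diag_apply, Matrix.mul_apply, Complex.re_sum, Complex.mul_re,
    ContinuousLinearMap.sum_apply, ContinuousLinearMap.sub_apply, ContinuousLinearMap.smul_apply,
    smul_eq_mul]
  rfl

theorem contDiffAt_opG {g : Cm n → Matrix (Fin n) (Fin n) ℂ} {z : Cm n}
    (hg : ∀ p q, ContDiffAt ℝ ∞ (fun y => g y p q) z) (hp : (g z).PosDef) :
    ContDiffAt ℝ ∞ (fun y => opG (g y)) z := by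
  have hgi : ∀ p q, ContDiffAt ℝ ∞ (fun y => (g y)⁻¹ p q) z := fun p q =>
    contDiffAt_inv hg hp.det_pos.ne' p q
  have h1 : ∀ p q, ContDiffAt ℝ ∞ (fun y => ((g y)⁻¹ p q).re) z := fun p q =>
    Complex.reCLM.contDiff.contDiffAt.comp z (hgi p q)
  have h2 : ∀ p q, ContDiffAt ℝ ∞ (fun y => ((g y)⁻¹ p q).im) z := fun p q =>
    Complex.imCLM.contDiff.contDiffAt.comp z (hgi p q)
  simp only [opG_eq]
  exact ContDiffAt.sum fun p _ => ContDiffAt.sum fun q _ =>
    ((h1 p q).smul contDiffAt_const).sub ((h2 p q).smul contDiffAt_const)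

theorem opG_pos {G : Matrix (Fin n) (Fin n) ℂ} (hG : G.PosDef) {ξ : Cm n →L[ℝ] ℝ} (hξ : ξ ≠ 0) :
    0 < opG G (ξ.smulRight ξ) := N.trace_inv_lev_pos hG hξ

theorem Lop_congr {E : Type} [NormedAddCommGroup E] [NormedSpace ℝ E] {a : E → B2 E →L[ℝ] ℝ}
    {u v : E → ℝ} {z : E} (h : u =ᶠ[𝓝 z] v) : Lop a u z = Lop a v z := by
  unfold Lop
  rw [h.fderiv.fderiv_eq]

namespace PS

variable {M Γ : Type} [TopologicalSpace M] [Group Γ] (P : PS n M Γ)

theorem ac_inv_ac (γ : Γ) (m : M) : P.ac γ⁻¹ (P.ac γ m) = m := by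
  rw [← P.ac_mul, inv_mul_cancel, P.ac_one]

theorem ac_ac_inv (γ : Γ) (m : M) : P.ac γ (P.ac γ⁻¹ m) = m := by
  rw [← P.ac_mul, mul_inv_cancel, P.ac_one]

/-- the point with coordinate `z` in the patch `(i, γ)` -/
def pt (i : Fin P.N) (γ : Γ) (z : Cm n) : M := P.ac γ⁻¹ ((P.e i).symm z)

/-- the coordinate of the point `m` in the patch `(i, γ)` -/
def co (i : Fin P.N) (γ : Γ) (m : M) : Cm n := P.e i (P.ac γ m)

/-- `m` is in the patch `(i, γ)` -/
def act (i : Fin P.N) (γ : Γ) (m : M) : Prop := P.ac γ m ∈ (P.e i).source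

variable {P} {i j k : Fin P.N} {γ δ ε : Γ} {m : M} {z : Cm n}

theorem act_pt (hz : z ∈ (P.e i).target) : P.act i γ (P.pt i γ z) := by
  unfold act pt
  rw [P.ac_ac_inv]
  exact (P.e i).map_target hz

theorem co_pt (hz : z ∈ (P.e i).target) : P.co i γ (P.pt i γ z) = z := by
  unfold co pt
  rw [P.ac_ac_inv, (P.e i).right_inv hz]

theorem pt_co (h : P.act i γ m) : P.pt i γ (P.co i γ m) = m := by
  unfold co pt
  rw [(P.e i).left_inv h, P.ac_inv_ac]

theorem co_mem (h : P.act i γ m) : P.co i γ m ∈ (P.e i).target := (P.e i).map_source h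

theorem act_unique (h : P.act i γ m) (h' : P.act i δ m) : γ = δ := by
  have := P.sep i (δ * γ⁻¹) (P.ac γ m) h (by
    rw [P.ac_mul, P.ac_inv_ac]; exact h')
  rw [mul_inv_eq_one] at this
  exact this.symm

theorem isOpen_act (i : Fin P.N) (γ : Γ) : IsOpen {m | P.act i γ m} :=
  (P.e i).open_source.preimage (P.ac γ).continuous

theorem act_eventually (h : P.act i γ m) : ∀ᶠ m' in 𝓝 m, P.act i γ m' :=
  (isOpen_act i γ).mem_nhds h

theorem continuousAt_co (h : P.act i γ m) : ContinuousAt (P.co i γ) m := by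
  unfold co
  exact ContinuousAt.comp (f := P.ac γ) (g := P.e i) ((P.e i).continuousAt h)
    (P.ac γ).continuous.continuousAt

theorem continuousAt_pt (hz : z ∈ (P.e i).target) : ContinuousAt (P.pt i γ) z :=
  ContinuousAt.comp (f := (P.e i).symm) (g := P.ac γ⁻¹) (P.ac γ⁻¹).continuous.continuousAt
    ((P.e i).continuousAt_symm hz)

theorem loc_apply (f : M → ℝ) (z : Cm n) : P.loc i γ f z = f (P.pt i γ z) := rfl

theorem loc_co (f : M → ℝ) (h : P.act i γ m) : P.loc i γ f (P.co i γ m) = f m := by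
  rw [loc_apply, pt_co h]

/-- the transition from the patch `(j, δ)` to the patch `(i, γ)` -/
def tau (P : PS n M Γ) (j : Fin P.N) (δ : Γ) (i : Fin P.N) (γ : Γ) (z : Cm n) : Cm n :=
  P.co i γ (P.pt j δ z)

theorem tau_eq (j : Fin P.N) (δ : Γ) (i : Fin P.N) (γ : Γ) (z : Cm n) :
    P.tau j δ i γ z = P.e i (P.ac (γ * δ⁻¹) ((P.e j).symm z)) := by
  unfold tau co pt
  rw [P.ac_mul]

theorem tau_hol (hz : z ∈ (P.e j).target) (h : P.act i γ (P.pt j δ z)) :
    ContDiffAt ℂ ω (P.tau j δ i γ) z := by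
  have h1 := P.tr_hol j i (γ * δ⁻¹) ((P.e j).symm z) ((P.e j).map_target hz) (by
    rw [P.ac_mul]; exact h)
  rw [(P.e j).right_inv hz] at h1
  have h2 : P.tau j δ i γ = fun z => P.e i (P.ac (γ * δ⁻¹) ((P.e j).symm z)) := by
    funext z; exact tau_eq j δ i γ z
  rw [h2]; exact h1

theorem tau_iso (hz : z ∈ (P.e j).target) (h : P.act i γ (P.pt j δ z)) :
    P.g j z = (jmat (P.tau j δ i γ) z).transpose * P.g i (P.tau j δ i γ z) *
      (jmat (P.tau j δ i γ) z).map (starRingEnd ℂ) := by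
  have h1 := P.tr_iso j i (γ * δ⁻¹) ((P.e j).symm z) ((P.e j).map_target hz) (by
    rw [P.ac_mul]; exact h)
  rw [(P.e j).right_inv hz] at h1
  have h2 : P.tau j δ i γ = fun z => P.e i (P.ac (γ * δ⁻¹) ((P.e j).symm z)) := by
    funext z; exact tau_eq j δ i γ z
  rw [h2]; exact h1

theorem tau_mem (h : P.act i γ (P.pt j δ z)) : P.tau j δ i γ z ∈ (P.e i).target := co_mem h

theorem pt_eventually (hz : z ∈ (P.e j).target) (h : P.act i γ (P.pt j δ z)) :
    ∀ᶠ y in 𝓝 z, y ∈ (P.e j).target ∧ P.act i γ (P.pt j δ y) := by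
  have h1 : ∀ᶠ y in 𝓝 z, y ∈ (P.e j).target := (P.e j).open_target.mem_nhds hz
  have h2 : ∀ᶠ y in 𝓝 z, P.act i γ (P.pt j δ y) :=
    (continuousAt_pt hz).eventually (act_eventually h)
  exact h1.and h2

/-- change of patch for functions -/
theorem loc_tau (f : M → ℝ) (hz : z ∈ (P.e j).target) (h : P.act i γ (P.pt j δ z)) :
    P.loc j δ f =ᶠ[𝓝 z] fun y => P.loc i γ f (P.tau j δ i γ y) := by
  filter_upwards [pt_eventually hz h] with y hy
  rw [tau, loc_co f hy.2]
  rfl

/-- invariance of the Laplacian under the change of patch -/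
theorem Lo_tau {u : Cm n → ℝ} (hz : z ∈ (P.e j).target) (h : P.act i γ (P.pt j δ z))
    (hu : ContDiffAt ℝ 2 u (P.tau j δ i γ z)) :
    P.Lo j (fun y => u (P.tau j δ i γ y)) z = P.Lo i u (P.tau j δ i γ z) :=
  Lop_comp (tau_hol hz h) hu (P.g_pos j z hz) (tau_iso hz h)

theorem ellOn (P : PS n M Γ) (i : Fin P.N) : EllOn (fun y => opG (P.g i y)) (P.e i).target where
  isOpen := (P.e i).open_target
  smooth := fun z hz => contDiffAt_opG (P.g_smooth i z hz) (P.g_pos i z hz)
  pos := fun z hz _ hξ => opG_pos (P.g_pos i z hz) hξ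

end PS

end Vale.Agent.P299.H760
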